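import Vale.Agent.Lib.P047.H2.BalSum

namespace Vale.Agent.Lib.P047.H2

open Finset

/-- value of the threshold-with-gadget function as a function of the balance `t` of the
light block: the gadget weight `w` on the tie layer `|t| = 1`, and `|t|` elsewhere -/
noncomputable def phiW (w : ℝ) (t : ℤ) : ℝ := if t.natAbs = 1 then w else |(t : ℝ)|

/-- `16 E|t + Z|` for `Z` a sum of four independent signs -/
noncomputable def psiF (t : ℤ) : ℝ :=
  |((t + 4 : ℤ) : ℝ)| + 4 * |((t + 2 : ℤ) : ℝ)| + 6 * |((t : ℤ) : ℝ)|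
    + 4 * |((t - 2 : ℤ) : ℝ)| + |((t - 4 : ℤ) : ℝ)|

/-- the difference `16 phiW (17/8) - psiF` on odd integers -/
noncomputable def chiF (t : ℤ) : ℝ := if t.natAbs = 1 then 4 else if t.natAbs = 3 then -2 else 0

theorem sum_abs_eq_bal (d : ℕ) :
    ∑ x : Fin d → Bool, |∑ i, sgn (x i)| = ∑ x : Fin d → Bool, |((bal x : ℤ) : ℝ)| := by
  apply Finset.sum_congr rfl
  intro x _
  rw [bal_cast]

section gadget

variable {ι : Type} [Fintype ι] [DecidableEq ι]

/-- the level-one sum of the threshold-with-gadget function -/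
theorem thrG_levelOne_bal (G : (ι → Bool) → Bool) (k : ℕ) :
    ∑ t, fourier (fun z => sgn (thrG G k z)) {t}
      = (∑ y : Fin k → Bool, phiW (∑ i, fourier (fun x => sgn (G x)) {i}) (bal y)) / 2 ^ k := by
  rw [thrG_levelOne]
  set w := ∑ i, fourier (fun x => sgn (G x)) {i} with hw
  have h1 : fourier (tieF (k := k)) ∅ = (∑ y : Fin k → Bool, tieF y) / 2 ^ k := by
    unfold fourier
    simp
  have h2 : ∑ j, fourier (majF (k := k)) {j}
      = (∑ y : Fin k → Bool, majF y * ((bal y : ℤ) : ℝ)) / 2 ^ k := by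
    unfold fourier
    simp only [Finset.prod_singleton, Fintype.card_fin]
    rw [← Finset.sum_div, Finset.sum_comm]
    congr 1
    apply Finset.sum_congr rfl
    intro y _
    rw [← Finset.mul_sum, bal_cast]
  rw [h1, h2, ← mul_div_assoc, ← add_div, Finset.mul_sum, ← Finset.sum_add_distrib]
  congr 1
  apply Finset.sum_congr rfl
  intro y _
  unfold tieF majF phiW
  by_cases h : (bal y).natAbs = 1
  · simp [h]
  · by_cases hp : 0 < bal y
    · have hp' : (0 : ℝ) < ((bal y : ℤ) : ℝ) := by exact_mod_cast hp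
      simp [h, hp, abs_of_pos hp']
    · have hp' : ((bal y : ℤ) : ℝ) ≤ 0 := by
        have : bal y ≤ 0 := not_lt.mp hp
        exact_mod_cast this
      simp [h, hp, abs_of_nonpos hp']

end gadget

/-- pointwise comparison on odd integers -/
theorem pointwise_cmp (t : ℤ) (ht : t % 2 = 1) : 16 * phiW (17 / 8) t - psiF t = chiF t := by
  have hcases : t ≤ -5 ∨ t = -3 ∨ t = -1 ∨ t = 1 ∨ t = 3 ∨ 5 ≤ t := by omega
  rcases hcases with h | h | h | h | h | h
  · have h1 : t.natAbs ≠ 1 := by omega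
    have h3 : t.natAbs ≠ 3 := by omega
    have h5 : ((t : ℤ) : ℝ) ≤ -5 := by exact_mod_cast h
    unfold phiW psiF chiF
    rw [if_neg h1, if_neg h1, if_neg h3]
    push_cast
    rw [abs_of_nonpos (by linarith : ((t : ℤ) : ℝ) + 4 ≤ 0),
      abs_of_nonpos (by linarith : ((t : ℤ) : ℝ) + 2 ≤ 0),
      abs_of_nonpos (by linarith : ((t : ℤ) : ℝ) ≤ 0),
      abs_of_nonpos (by linarith : ((t : ℤ) : ℝ) - 2 ≤ 0),
      abs_of_nonpos (by linarith : ((t : ℤ) : ℝ) - 4 ≤ 0)]
    ring
  · subst h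
    unfold phiW psiF chiF
    norm_num
  · subst h
    unfold phiW psiF chiF
    norm_num
  · subst h
    unfold phiW psiF chiF
    norm_num
  · subst h
    unfold phiW psiF chiF
    norm_num
  · have h1 : t.natAbs ≠ 1 := by omega
    have h3 : t.natAbs ≠ 3 := by omega
    have h5 : (5 : ℝ) ≤ ((t : ℤ) : ℝ) := by exact_mod_cast h
    unfold phiW psiF chiF
    rw [if_neg h1, if_neg h1, if_neg h3]
    push_cast
    rw [abs_of_nonneg (by linarith : 0 ≤ ((t : ℤ) : ℝ) + 4),
      abs_of_nonneg (by linarith : 0 ≤ ((t : ℤ) : ℝ) + 2),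
      abs_of_nonneg (by linarith : 0 ≤ ((t : ℤ) : ℝ)),
      abs_of_nonneg (by linarith : 0 ≤ ((t : ℤ) : ℝ) - 2),
      abs_of_nonneg (by linarith : 0 ≤ ((t : ℤ) : ℝ) - 4)]
    ring

/-- the tie layer outweighs the next layer -/
theorem sum_chi_pos (j : ℕ) : 0 < ∑ y : Fin (2 * j + 1) → Bool, chiF (bal y) := by
  rw [sum_bal_eq_choose]
  rcases j with _ | j
  · simp [Finset.sum_range_succ, chiF]
  · set k := 2 * (j + 1) + 1 with hk
    have key : ∀ i : ℕ, (k.choose i : ℝ) * chiF (2 * (i : ℤ) - (k : ℤ))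
        = (if i = j + 1 then 4 * (k.choose (j + 1) : ℝ) else 0)
          + (if i = j + 2 then 4 * (k.choose (j + 2) : ℝ) else 0)
          + (if i = j then -2 * (k.choose j : ℝ) else 0)
          + (if i = j + 3 then -2 * (k.choose (j + 3) : ℝ) else 0) := by
      intro i
      have hA : (2 * (i : ℤ) - (k : ℤ)).natAbs = 1 ↔ (i = j + 1 ∨ i = j + 2) := by
        rw [hk]
        push_cast
        omega
      have hB : (2 * (i : ℤ) - (k : ℤ)).natAbs = 3 ↔ (i = j ∨ i = j + 3) := by
        rw [hk]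
        push_cast
        omega
      unfold chiF
      by_cases c1 : (2 * (i : ℤ) - (k : ℤ)).natAbs = 1
      · rw [if_pos c1]
        rcases hA.mp c1 with h | h
        · rw [if_pos h, if_neg (by omega), if_neg (by omega), if_neg (by omega), h]
          ring
        · rw [if_neg (by omega), if_pos h, if_neg (by omega), if_neg (by omega), h]
          ring
      · rw [if_neg c1]
        by_cases c3 : (2 * (i : ℤ) - (k : ℤ)).natAbs = 3
        · rw [if_pos c3]
          rcases hB.mp c3 with h | h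
          · rw [if_neg (by omega), if_neg (by omega), if_pos h, if_neg (by omega), h]
            ring
          · rw [if_neg (by omega), if_neg (by omega), if_neg (by omega), if_pos h, h]
            ring
        · rw [if_neg c3]
          have n1 : ¬ i = j + 1 := fun h => c1 (hA.mpr (Or.inl h))
          have n2 : ¬ i = j + 2 := fun h => c1 (hA.mpr (Or.inr h))
          have n3 : ¬ i = j := fun h => c3 (hB.mpr (Or.inl h))
          have n4 : ¬ i = j + 3 := fun h => c3 (hB.mpr (Or.inr h))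
          rw [if_neg n1, if_neg n2, if_neg n3, if_neg n4]
          ring
    rw [Finset.sum_congr rfl (fun i _ => key i)]
    simp only [Finset.sum_add_distrib, Finset.sum_ite_eq']
    have m1 : j + 1 ∈ Finset.range (k + 1) := by
      rw [Finset.mem_range]
      omega
    have m2 : j + 2 ∈ Finset.range (k + 1) := by
      rw [Finset.mem_range]
      omega
    have m3 : j ∈ Finset.range (k + 1) := by
      rw [Finset.mem_range]
      omega
    have m4 : j + 3 ∈ Finset.range (k + 1) := by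
      rw [Finset.mem_range]
      omega
    rw [if_pos m1, if_pos m2, if_pos m3, if_pos m4]
    have c1 : k.choose j ≤ k.choose (j + 1) := Nat.choose_le_succ_of_lt_half_left (by omega)
    have c2 : k.choose (j + 3) = k.choose j := by
      have hsym := Nat.choose_symm (n := k) (k := j) (by omega)
      have hkj : k - j = j + 3 := by omega
      rw [hkj] at hsym
      exact hsym
    have c3 : 0 < k.choose (j + 2) := Nat.choose_pos (by omega)
    have c1' : (k.choose j : ℝ) ≤ (k.choose (j + 1) : ℝ) := by exact_mod_cast c1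
    have c3' : (0 : ℝ) < (k.choose (j + 2) : ℝ) := by exact_mod_cast c3
    rw [c2]
    linarith

/-- the balance of a point of an odd-dimensional cube is odd -/
theorem bal_odd {k : ℕ} (hk : Odd k) (y : Fin k → Bool) : bal y % 2 = 1 := by
  obtain ⟨c, hc⟩ := bal_parity y
  obtain ⟨b, hb⟩ := hk
  rw [hc, hb]
  push_cast
  omega

/-- the threshold-with-gadget value beats `E|X_1 + ... + X_{k+4}|` -/
theorem phi_beats (j : ℕ) :
    (∑ x : Fin (2 * j + 1 + 4) → Bool, |∑ i, sgn (x i)|) / 2 ^ (2 * j + 1 + 4)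
      < (∑ y : Fin (2 * j + 1) → Bool, phiW (17 / 8) (bal y)) / 2 ^ (2 * j + 1) := by
  rw [sum_abs_eq_bal, sum_bal_four (2 * j + 1) (fun t => |((t : ℤ) : ℝ)|)]
  have hpt : ∀ y : Fin (2 * j + 1) → Bool,
      |((bal y + 4 : ℤ) : ℝ)| + 4 * |((bal y + 2 : ℤ) : ℝ)| + 6 * |((bal y : ℤ) : ℝ)|
        + 4 * |((bal y - 2 : ℤ) : ℝ)| + |((bal y - 4 : ℤ) : ℝ)|
      = 16 * phiW (17 / 8) (bal y) - chiF (bal y) := by
    intro y
    have := pointwise_cmp (bal y) (bal_odd ⟨j, rfl⟩ y)
    unfold psiF at this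
    linarith
  rw [Finset.sum_congr rfl (fun y _ => hpt y), Finset.sum_sub_distrib, ← Finset.mul_sum]
  have hpos := sum_chi_pos j
  have h2 : (0 : ℝ) < 2 ^ (2 * j + 1) := by positivity
  rw [pow_add, div_lt_div_iff₀ (by positivity) h2]
  nlinarith [hpos, h2]

/-- adding one coordinate to an odd-dimensional cube does not change `E|X_1 + ... + X_m|` -/
theorem abs_mean_succ_of_odd (m : ℕ) (hm : Odd m) :
    (∑ x : Fin (m + 1) → Bool, |∑ i, sgn (x i)|) / 2 ^ (m + 1)
      = (∑ x : Fin m → Bool, |∑ i, sgn (x i)|) / 2 ^ m := by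
  rw [sum_abs_eq_bal, sum_abs_eq_bal, sum_bal_succ m (fun t => |((t : ℤ) : ℝ)|)]
  have hpt : ∀ y : Fin m → Bool,
      |((bal y + 1 : ℤ) : ℝ)| + |((bal y - 1 : ℤ) : ℝ)| = 2 * |((bal y : ℤ) : ℝ)| := by
    intro y
    have hodd := bal_odd hm y
    have hcases : bal y ≤ -1 ∨ 1 ≤ bal y := by omega
    push_cast
    rcases hcases with h | h
    · have h' : ((bal y : ℤ) : ℝ) ≤ -1 := by exact_mod_cast h
      rw [abs_of_nonpos (by linarith : ((bal y : ℤ) : ℝ) + 1 ≤ 0),
        abs_of_nonpos (by linarith : ((bal y : ℤ) : ℝ) - 1 ≤ 0),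
        abs_of_nonpos (by linarith : ((bal y : ℤ) : ℝ) ≤ 0)]
      ring
    · have h' : (1 : ℝ) ≤ ((bal y : ℤ) : ℝ) := by exact_mod_cast h
      rw [abs_of_nonneg (by linarith : 0 ≤ ((bal y : ℤ) : ℝ) + 1),
        abs_of_nonneg (by linarith : 0 ≤ ((bal y : ℤ) : ℝ) - 1),
        abs_of_nonneg (by linarith : 0 ≤ ((bal y : ℤ) : ℝ))]
      ring
  rw [Finset.sum_congr rfl (fun y _ => hpt y), ← Finset.mul_sum, pow_succ]
  have h2 : (2 : ℝ) ^ m ≠ 0 := by positivity
  field_simp

/-- The threshold-with-gadget function built on the degree-five example, transported to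
`Fin (10 + k)`: degree at most `k + 4` for odd `k`, with its level-one sum. -/
theorem exists_thr (k : ℕ) (hk : Odd k) : ∃ F : (Fin (10 + k) → Bool) → Bool,
    degree (fun x => sgn (F x)) ≤ k + 4 ∧
    ∑ i, fourier (fun x => sgn (F x)) {i}
      = (∑ y : Fin k → Bool, phiW (17 / 8) (bal y)) / 2 ^ k := by
  obtain ⟨G, _, hGd, hGw⟩ := exists_degree_five
  obtain ⟨_, r2, r3⟩ := rename_props (finSumFinEquiv (m := 10) (n := k)) (thrG G k)
  refine ⟨fun y => thrG G k (fun t => y (finSumFinEquiv t)), ?_, ?_⟩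
  · refine le_trans r3 (le_trans (thrG_degree G 5 k (by norm_num) hGd hk) ?_)
    omega
  · rw [r2, thrG_levelOne_bal, hGw]

/-- For every degree `d ≥ 5` some Boolean function of degree at most `d` has level-one
sum larger than `E|X_1 + ... + X_d|`. -/
theorem beats_majority (d : ℕ) (hd : 5 ≤ d) : ∃ (N : ℕ) (F : (Fin N → Bool) → Bool),
    degree (fun x => sgn (F x)) ≤ d ∧
    (∑ x : Fin d → Bool, |∑ i, sgn (x i)|) / 2 ^ d
      < ∑ i, fourier (fun x => sgn (F x)) {i} := by
  rcases Nat.even_or_odd d with he | ho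
  · -- `d = 2 j + 1 + 4 + 1`
    obtain ⟨a, ha⟩ := he
    obtain ⟨j, rfl⟩ : ∃ j, d = 2 * j + 1 + 4 + 1 := ⟨a - 3, by omega⟩
    obtain ⟨F, hF1, hF2⟩ := exists_thr (2 * j + 1) ⟨j, rfl⟩
    refine ⟨_, F, le_trans hF1 (by omega), ?_⟩
    rw [abs_mean_succ_of_odd (2 * j + 1 + 4) ⟨j + 2, by ring⟩, hF2]
    exact phi_beats j
  · obtain ⟨a, ha⟩ := ho
    obtain ⟨j, rfl⟩ : ∃ j, d = 2 * j + 1 + 4 := ⟨a - 2, by omega⟩
    obtain ⟨F, hF1, hF2⟩ := exists_thr (2 * j + 1) ⟨j, rfl⟩
    refine ⟨_, F, hF1, ?_⟩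
    rw [hF2]
    exact phi_beats j

/-- A Boolean function of degree at most seven on thirteen variables with level-one sum
`75/32`. -/
theorem exists_degree_seven_better : ∃ F : (Fin 13 → Bool) → Bool,
    degree (fun x => sgn (F x)) ≤ 7 ∧
    ∑ i, fourier (fun x => sgn (F x)) {i} = 75 / 32 := by
  obtain ⟨F, hF1, hF2⟩ := exists_thr 3 ⟨1, rfl⟩
  refine ⟨F, hF1, ?_⟩
  rw [hF2, sum_bal_eq_choose]
  simp [Finset.sum_range_succ, phiW, Nat.choose]
  norm_num

end Vale.Agent.Lib.P047.H2
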