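import Vale.Agent.Lib.P047.H2.Gadget

namespace Vale.Agent.Lib.P047.H2

open Finset

/-- one more coordinate -/
theorem sum_bal_succ (m : ℕ) (Φ : ℤ → ℝ) :
    ∑ w : Fin (m + 1) → Bool, Φ (bal w)
      = ∑ y : Fin m → Bool, (Φ (bal y + 1) + Φ (bal y - 1)) := by
  have h1 := Equiv.sum_comp (Fin.consEquiv (fun _ : Fin (m + 1) => Bool))
    (fun w : Fin (m + 1) → Bool => Φ (bal w))
  rw [← h1, Fintype.sum_prod_type]
  have hb : ∀ (b : Bool) (y : Fin m → Bool),
      bal (Fin.consEquiv (fun _ : Fin (m + 1) => Bool) (b, y)) = (if b then 1 else -1) + bal y := by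
    intro b y
    unfold bal
    rw [Fin.sum_univ_succ]
    simp [Fin.consEquiv]
  simp only [hb]
  rw [Fintype.sum_bool, ← Finset.sum_add_distrib]
  apply Finset.sum_congr rfl
  intro y _
  simp only [if_true, Bool.false_eq_true, if_false]
  rw [show (1 : ℤ) + bal y = bal y + 1 by ring, show (-1 : ℤ) + bal y = bal y - 1 by ring]

/-- two more coordinates -/
theorem sum_bal_two (m : ℕ) (Φ : ℤ → ℝ) :
    ∑ w : Fin (m + 2) → Bool, Φ (bal w)
      = ∑ y : Fin m → Bool, (Φ (bal y + 2) + 2 * Φ (bal y) + Φ (bal y - 2)) := by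
  have e1 := sum_bal_succ (m + 1) Φ
  have e2 := sum_bal_succ m (fun t => Φ (t + 1) + Φ (t - 1))
  refine e1.trans (e2.trans ?_)
  apply Finset.sum_congr rfl
  intro y _
  show Φ (bal y + 1 + 1) + Φ (bal y + 1 - 1) + (Φ (bal y - 1 + 1) + Φ (bal y - 1 - 1)) = _
  rw [show bal y + 1 + 1 = bal y + 2 by ring, show bal y + 1 - 1 = bal y by ring,
    show bal y - 1 + 1 = bal y by ring, show bal y - 1 - 1 = bal y - 2 by ring]
  ring

/-- four more coordinates -/
theorem sum_bal_four (m : ℕ) (Φ : ℤ → ℝ) :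
    ∑ w : Fin (m + 4) → Bool, Φ (bal w)
      = ∑ y : Fin m → Bool, (Φ (bal y + 4) + 4 * Φ (bal y + 2) + 6 * Φ (bal y)
          + 4 * Φ (bal y - 2) + Φ (bal y - 4)) := by
  have e1 := sum_bal_two (m + 2) Φ
  have e2 := sum_bal_two m (fun t => Φ (t + 2) + 2 * Φ t + Φ (t - 2))
  refine e1.trans (e2.trans ?_)
  apply Finset.sum_congr rfl
  intro y _
  show Φ (bal y + 2 + 2) + 2 * Φ (bal y + 2) + Φ (bal y + 2 - 2)
      + 2 * (Φ (bal y + 2) + 2 * Φ (bal y) + Φ (bal y - 2))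
      + (Φ (bal y - 2 + 2) + 2 * Φ (bal y - 2) + Φ (bal y - 2 - 2)) = _
  rw [show bal y + 2 + 2 = bal y + 4 by ring, show bal y + 2 - 2 = bal y by ring,
    show bal y - 2 + 2 = bal y by ring, show bal y - 2 - 2 = bal y - 4 by ring]
  ring

/-- sums of a function of the balance over the cube, as binomial sums -/
theorem sum_bal_eq_choose (m : ℕ) : ∀ Φ : ℤ → ℝ,
    ∑ y : Fin m → Bool, Φ (bal y)
      = ∑ i ∈ Finset.range (m + 1), (m.choose i : ℝ) * Φ (2 * (i : ℤ) - m) := by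
  induction m with
  | zero =>
    intro Φ
    simp [bal]
  | succ m ih =>
    intro Φ
    rw [sum_bal_succ, Finset.sum_add_distrib, ih (fun t => Φ (t + 1)), ih (fun t => Φ (t - 1))]
    rw [Finset.sum_range_succ' _ (m + 1)]
    have hA : ∀ i ∈ Finset.range (m + 1),
        ((m + 1).choose (i + 1) : ℝ) * Φ (2 * ((i + 1 : ℕ) : ℤ) - ((m + 1 : ℕ) : ℤ))
          = (m.choose i : ℝ) * Φ (2 * (i : ℤ) - m + 1)
            + (m.choose (i + 1) : ℝ) * Φ (2 * (i : ℤ) - m + 1) := by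
      intro i _
      rw [Nat.choose_succ_succ]
      have : 2 * ((i + 1 : ℕ) : ℤ) - ((m + 1 : ℕ) : ℤ) = 2 * (i : ℤ) - m + 1 := by
        push_cast
        ring
      rw [this]
      push_cast
      ring
    rw [Finset.sum_congr rfl hA, Finset.sum_add_distrib]
    have hB : ∑ i ∈ Finset.range (m + 1), (m.choose (i + 1) : ℝ) * Φ (2 * (i : ℤ) - m + 1)
          + ((m + 1).choose 0 : ℝ) * Φ (2 * ((0 : ℕ) : ℤ) - ((m + 1 : ℕ) : ℤ))
        = ∑ i ∈ Finset.range (m + 1), (m.choose i : ℝ) * Φ (2 * (i : ℤ) - m - 1) := by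
      rw [Finset.sum_range_succ, Finset.sum_range_succ' _ m]
      have hz : m.choose (m + 1) = 0 := Nat.choose_succ_self m
      rw [hz]
      have hC : ∀ i ∈ Finset.range m,
          (m.choose (i + 1) : ℝ) * Φ (2 * (i : ℤ) - m + 1)
            = (m.choose (i + 1) : ℝ) * Φ (2 * ((i + 1 : ℕ) : ℤ) - m - 1) := by
        intro i _
        have : 2 * ((i + 1 : ℕ) : ℤ) - (m : ℤ) - 1 = 2 * (i : ℤ) - m + 1 := by
          push_cast
          ring
        rw [this]
      rw [Finset.sum_congr rfl hC]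
      have h0 : (2 * ((0 : ℕ) : ℤ) - ((m + 1 : ℕ) : ℤ)) = 2 * ((0 : ℕ) : ℤ) - (m : ℤ) - 1 := by
        push_cast
        ring
      rw [h0]
      simp
    linarith [hB]

/-- the balance has the parity of the dimension -/
theorem bal_parity {m : ℕ} (y : Fin m → Bool) : ∃ c : ℤ, bal y = 2 * c - m := by
  refine ⟨∑ j, (if y j then 1 else 0), ?_⟩
  unfold bal
  rw [Finset.mul_sum]
  have : (m : ℤ) = ∑ _j : Fin m, (1 : ℤ) := by simp
  rw [this, ← Finset.sum_sub_distrib]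
  apply Finset.sum_congr rfl
  intro j _
  rcases h : y j with _ | _ <;> simp

end Vale.Agent.Lib.P047.H2
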