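import Vale.Agent.Lib.P047.H2.Fourier

namespace Vale.Agent.Lib.P047.H2

open Finset

/-- block composition of Boolean functions -/
def comp {ι κ : Type} (f : (ι → Bool) → Bool) (g : (κ → Bool) → Bool) :
    (ι × κ → Bool) → Bool :=
  fun x => f (fun i => g (fun j => x (i, j)))

/-- the part of a set of variables of the composition lying in block `i` -/
def fiber {ι κ : Type} [DecidableEq ι] [Fintype κ] [DecidableEq κ] (T : Finset (ι × κ)) (i : ι) :
    Finset κ :=
  Finset.univ.filter fun j => (i, j) ∈ T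

section

variable {ι κ : Type} [Fintype ι] [DecidableEq ι] [Fintype κ] [DecidableEq κ]

theorem sum_prod_blocks (φ : ι → (κ → Bool) → ℝ) :
    ∑ x : ι × κ → Bool, ∏ i, φ i (fun j => x (i, j)) = ∏ i, ∑ y : κ → Bool, φ i y := by
  have h2 := Finset.prod_univ_sum (fun _ : ι => (Finset.univ : Finset (κ → Bool))) φ
  rw [Fintype.piFinset_univ] at h2
  rw [h2]
  exact Equiv.sum_comp (Equiv.curry ι κ Bool) (fun X : ι → κ → Bool => ∏ i, φ i (X i))

theorem chi_blocks (T : Finset (ι × κ)) (x : ι × κ → Bool) :
    ∏ p ∈ T, sgn (x p) = ∏ i, ∏ j ∈ fiber T i, sgn (x (i, j)) := by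
  have h1 : ∏ p ∈ T, sgn (x p) = ∏ p : ι × κ, (if p ∈ T then sgn (x p) else 1) := by
    rw [Finset.prod_ite_mem, Finset.univ_inter]
  rw [h1, Fintype.prod_prod_type]
  apply Finset.prod_congr rfl
  intro i _
  unfold fiber
  rw [Finset.prod_filter]

theorem card_eq_sum_fiber (T : Finset (ι × κ)) : T.card = ∑ i, (fiber T i).card := by
  have h1 : (T.card : ℕ) = ∑ p : ι × κ, (if p ∈ T then 1 else 0) := by
    rw [Finset.sum_ite_mem, Finset.univ_inter]
    simp
  rw [h1, Fintype.sum_prod_type]
  apply Finset.sum_congr rfl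
  intro i _
  unfold fiber
  rw [Finset.card_filter]

/-- Fourier coefficients of a block composition -/
theorem fourier_comp (f : (ι → Bool) → Bool) (g : (κ → Bool) → Bool) (T : Finset (ι × κ)) :
    fourier (fun x => sgn (comp f g x)) T
      = ∑ S : Finset ι, fourier (fun y => sgn (f y)) S *
          ∏ i, (if i ∈ S then fourier (fun y => sgn (g y)) (fiber T i)
                else (if fiber T i = ∅ then 1 else 0)) := by
  have hpt : ∀ x : ι × κ → Bool, sgn (comp f g x) * ∏ p ∈ T, sgn (x p)
      = ∑ S : Finset ι, fourier (fun y => sgn (f y)) S *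
          ∏ i, ((if i ∈ S then sgn (g (fun j => x (i, j))) else 1) *
            ∏ j ∈ fiber T i, sgn (x (i, j))) := by
    intro x
    have hinv := fourier_inversion (fun y => sgn (f y)) (fun i => g (fun j => x (i, j)))
    have hc : sgn (comp f g x) = ∑ S : Finset ι, fourier (fun y => sgn (f y)) S *
        ∏ i ∈ S, sgn (g (fun j => x (i, j))) := hinv
    rw [hc, chi_blocks, Finset.sum_mul]
    apply Finset.sum_congr rfl
    intro S _
    rw [Finset.prod_mul_distrib, mul_assoc]
    congr 2
    rw [Finset.prod_ite_mem, Finset.univ_inter]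
  have hL : fourier (fun x => sgn (comp f g x)) T
      = (∑ x : ι × κ → Bool, sgn (comp f g x) * ∏ p ∈ T, sgn (x p)) /
        2 ^ Fintype.card (ι × κ) := rfl
  rw [hL, Finset.sum_congr rfl (fun x _ => hpt x), Finset.sum_comm, Finset.sum_div]
  apply Finset.sum_congr rfl
  intro S _
  rw [← Finset.mul_sum,
    sum_prod_blocks (fun i y => (if i ∈ S then sgn (g y) else 1) * ∏ j ∈ fiber T i, sgn (y j))]
  have hfac : ∀ i : ι, ∑ y : κ → Bool, (if i ∈ S then sgn (g y) else 1) *
      ∏ j ∈ fiber T i, sgn (y j)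
      = 2 ^ Fintype.card κ * (if i ∈ S then fourier (fun y => sgn (g y)) (fiber T i)
          else (if fiber T i = ∅ then 1 else 0)) := by
    intro i
    have hpow : (2 : ℝ) ^ Fintype.card κ ≠ 0 := by positivity
    by_cases hi : i ∈ S
    · simp only [hi, if_true]
      unfold fourier
      field_simp
    · simp only [hi, if_false, one_mul]
      rw [sum_chi]
      split_ifs <;> simp
  rw [Finset.prod_congr rfl (fun i _ => hfac i), Finset.prod_mul_distrib, Finset.prod_const,
    Finset.card_univ, ← pow_mul, Fintype.card_prod]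
  have hpow : (2 : ℝ) ^ (Fintype.card κ * Fintype.card ι) ≠ 0 := by positivity
  rw [mul_comm (Fintype.card ι) (Fintype.card κ)]
  field_simp

end

end Vale.Agent.Lib.P047.H2
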