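import Vale.Agent.Lib.P047.H2.Compose

namespace Vale.Agent.Lib.P047.H2

open Finset

section

variable {ι κ : Type} [Fintype ι] [DecidableEq ι] [Fintype κ] [DecidableEq κ]

theorem degree_le_iff (F : (ι → Bool) → ℝ) (d : ℕ) :
    degree F ≤ d ↔ ∀ S : Finset ι, fourier F S ≠ 0 → S.card ≤ d := by
  unfold degree
  rw [Finset.sup_le_iff]
  simp

theorem card_le_degree (F : (ι → Bool) → ℝ) (S : Finset ι) (h : fourier F S ≠ 0) :
    S.card ≤ degree F :=
  (degree_le_iff F (degree F)).mp le_rfl S h

theorem fiber_empty (i : ι) : fiber (∅ : Finset (ι × κ)) i = ∅ := by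
  simp [fiber]

theorem fiber_singleton (i0 : ι) (j0 : κ) (i : ι) :
    fiber ({(i0, j0)} : Finset (ι × κ)) i = if i = i0 then {j0} else ∅ := by
  unfold fiber
  ext j
  by_cases h : i = i0
  · simp [h]
  · simp [h]

theorem fourier_comp_empty (f : (ι → Bool) → Bool) (g : (κ → Bool) → Bool)
    (hg : fourier (fun y => sgn (g y)) ∅ = 0) :
    fourier (fun x => sgn (comp f g x)) ∅ = fourier (fun y => sgn (f y)) ∅ := by
  rw [fourier_comp, Finset.sum_eq_single ∅]
  · simp [fiber_empty]
  · intro S _ hS
    obtain ⟨i, hi⟩ := Finset.nonempty_iff_ne_empty.mpr hS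
    have hz : ∏ i, (if i ∈ S then fourier (fun y => sgn (g y)) (fiber (∅ : Finset (ι × κ)) i)
        else (if fiber (∅ : Finset (ι × κ)) i = ∅ then (1 : ℝ) else 0)) = 0 := by
      apply Finset.prod_eq_zero (Finset.mem_univ i)
      simp [hi, fiber_empty, hg]
    rw [hz, mul_zero]
  · intro h
    exact absurd (Finset.mem_univ _) h

theorem fourier_comp_singleton (f : (ι → Bool) → Bool) (g : (κ → Bool) → Bool)
    (hg : fourier (fun y => sgn (g y)) ∅ = 0) (i0 : ι) (j0 : κ) :
    fourier (fun x => sgn (comp f g x)) {(i0, j0)}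
      = fourier (fun y => sgn (f y)) {i0} * fourier (fun y => sgn (g y)) {j0} := by
  rw [fourier_comp, Finset.sum_eq_single {i0}]
  · congr 1
    rw [Finset.prod_eq_single i0]
    · simp [fiber_singleton]
    · intro i _ hi
      simp [fiber_singleton, hi]
    · intro h
      exact absurd (Finset.mem_univ _) h
  · intro S _ hS
    by_cases h0 : i0 ∈ S
    · have hex : ∃ i ∈ S, i ≠ i0 := by
        by_contra hcon
        push Not at hcon
        apply hS
        ext i
        simp only [Finset.mem_singleton]
        constructor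
        · exact hcon i
        · rintro rfl
          exact h0
      obtain ⟨i, hiS, hne⟩ := hex
      have hz : ∏ i, (if i ∈ S then
          fourier (fun y => sgn (g y)) (fiber ({(i0, j0)} : Finset (ι × κ)) i)
          else (if fiber ({(i0, j0)} : Finset (ι × κ)) i = ∅ then (1 : ℝ) else 0)) = 0 := by
        apply Finset.prod_eq_zero (Finset.mem_univ i)
        simp [hiS, fiber_singleton, hne, hg]
      rw [hz, mul_zero]
    · have hz : ∏ i, (if i ∈ S then
          fourier (fun y => sgn (g y)) (fiber ({(i0, j0)} : Finset (ι × κ)) i)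
          else (if fiber ({(i0, j0)} : Finset (ι × κ)) i = ∅ then (1 : ℝ) else 0)) = 0 := by
        apply Finset.prod_eq_zero (Finset.mem_univ i0)
        simp [h0, fiber_singleton]
      rw [hz, mul_zero]
  · intro h
    exact absurd (Finset.mem_univ _) h

theorem degree_comp_le (f : (ι → Bool) → Bool) (g : (κ → Bool) → Bool) :
    degree (fun x => sgn (comp f g x))
      ≤ degree (fun y => sgn (f y)) * degree (fun y => sgn (g y)) := by
  rw [degree_le_iff]
  intro T hT
  rw [fourier_comp] at hT
  obtain ⟨S, _, hS⟩ := Finset.exists_ne_zero_of_sum_ne_zero hT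
  have hf : fourier (fun y => sgn (f y)) S ≠ 0 := left_ne_zero_of_mul hS
  have hp := right_ne_zero_of_mul hS
  rw [Finset.prod_ne_zero_iff] at hp
  have hfib : ∀ i, (fiber T i).card ≤ if i ∈ S then degree (fun y => sgn (g y)) else 0 := by
    intro i
    have h := hp i (Finset.mem_univ i)
    by_cases hi : i ∈ S
    · simp only [hi, if_true] at h ⊢
      exact card_le_degree _ _ h
    · simp only [hi, if_false] at h ⊢
      by_cases he : fiber T i = ∅
      · simp [he]
      · simp [he] at h
  rw [card_eq_sum_fiber]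
  calc ∑ i, (fiber T i).card
      ≤ ∑ i, (if i ∈ S then degree (fun y => sgn (g y)) else 0) :=
        Finset.sum_le_sum (fun i _ => hfib i)
    _ = S.card * degree (fun y => sgn (g y)) := by
        rw [Finset.sum_ite_mem, Finset.univ_inter, Finset.sum_const, smul_eq_mul]
    _ ≤ degree (fun y => sgn (f y)) * degree (fun y => sgn (g y)) :=
        Nat.mul_le_mul_right _ (card_le_degree _ _ hf)

theorem levelOne_comp (f : (ι → Bool) → Bool) (g : (κ → Bool) → Bool)
    (hg : fourier (fun y => sgn (g y)) ∅ = 0) :
    ∑ p : ι × κ, fourier (fun x => sgn (comp f g x)) {p}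
      = (∑ i, fourier (fun y => sgn (f y)) {i}) * (∑ j, fourier (fun y => sgn (g y)) {j}) := by
  rw [Fintype.sum_prod_type, Finset.sum_mul_sum]
  apply Finset.sum_congr rfl
  intro i _
  apply Finset.sum_congr rfl
  intro j _
  exact fourier_comp_singleton f g hg i j

end

end Vale.Agent.Lib.P047.H2
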