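import Vale.Agent.Lib.P047.H2.Defs

namespace Vale.Agent.Lib.P047.H2

open Finset

/-- indicator of a cube, as a real number -/
noncomputable def ind {n : ℕ} (c : Fin n → Option Bool) (x : Fin n → Bool) : ℝ :=
  ∏ i, (match c i with | none => (1 : ℝ) | some b => if x i = b then 1 else 0)

theorem ind_of_mem {n : ℕ} (c : Fin n → Option Bool) (x : Fin n → Bool) (h : InCube c x) :
    ind c x = 1 := by
  unfold ind
  apply Finset.prod_eq_one
  intro i _
  cases hc : c i with
  | none => rfl
  | some b => simp [h i b hc]

theorem ind_of_not_mem {n : ℕ} (c : Fin n → Option Bool) (x : Fin n → Bool) (h : ¬ InCube c x) :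
    ind c x = 0 := by
  unfold InCube at h
  push Not at h
  obtain ⟨i, b, hc, hx⟩ := h
  unfold ind
  apply Finset.prod_eq_zero (Finset.mem_univ i)
  simp [hc, hx]

theorem ind_nonneg {n : ℕ} (c : Fin n → Option Bool) (x : Fin n → Bool) : 0 ≤ ind c x := by
  by_cases h : InCube c x
  · rw [ind_of_mem c x h]; norm_num
  · rw [ind_of_not_mem c x h]

/-- the factor of coordinate `i` in a cube sum -/
def fac (o : Option Bool) (h : Bool → ℝ) : ℝ :=
  match o with | none => h true + h false | some b => h b

/-- Summation of a product weight over a cube. -/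
theorem sum_ind_prod {n : ℕ} (c : Fin n → Option Bool) (h : Fin n → Bool → ℝ) :
    ∑ x : Fin n → Bool, ind c x * ∏ i, h i (x i) = ∏ i, fac (c i) (h i) := by
  have key : ∀ x : Fin n → Bool, ind c x * ∏ i, h i (x i)
      = ∏ i, (match c i with | none => h i (x i) | some b => if x i = b then h i b else 0) := by
    intro x
    unfold ind
    rw [← Finset.prod_mul_distrib]
    apply Finset.prod_congr rfl
    intro i _
    cases hc : c i with
    | none => simp
    | some b =>
      by_cases hx : x i = b
      · simp [hx]
      · simp [hx]
  rw [Finset.sum_congr rfl (fun x _ => key x)]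
  have h2 := Finset.prod_univ_sum (fun _ : Fin n => (Finset.univ : Finset Bool))
    (fun i b => (match c i with | none => h i b | some b' => if b = b' then h i b' else 0))
  rw [Fintype.piFinset_univ] at h2
  rw [← h2]
  apply Finset.prod_congr rfl
  intro i _
  unfold fac
  cases hc : c i with
  | none => simp
  | some b => cases b <;> simp

end Vale.Agent.Lib.P047.H2
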