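import Vale.Agent.Lib.P047.H2.TensorFinal
import Vale.Agent.Lib.P047.H2.Cubes

namespace Vale.Agent.Lib.P047.H2

open Finset

/-- the sign carried by a coordinate of a cube: `0` when the coordinate is free -/
def sgnO (o : Option Bool) : ℝ :=
  match o with | none => 0 | some b => sgn b

/-- Fourier coefficients of the indicator of a subcube, as a product over the coordinates -/
theorem fourier_ind {n : ℕ} (c : Fin n → Option Bool) (S : Finset (Fin n)) :
    fourier (ind c) S = ∏ i, (match c i with
      | none => if i ∈ S then (0 : ℝ) else 1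
      | some b => (if i ∈ S then sgn b else 1) / 2) := by
  unfold fourier
  have h1 : ∀ x : Fin n → Bool, ∏ i ∈ S, sgn (x i) = ∏ i, (if i ∈ S then sgn (x i) else 1) := by
    intro x
    rw [Finset.prod_ite_mem, Finset.univ_inter]
  rw [Finset.sum_congr rfl (fun x _ => by rw [h1 x])]
  rw [sum_ind_prod c (fun i b => if i ∈ S then sgn b else 1)]
  rw [Fintype.card_fin]
  have h2 : (2 : ℝ) ^ n = ∏ _i : Fin n, (2 : ℝ) := by simp
  rw [h2, ← Finset.prod_div_distrib]
  apply Finset.prod_congr rfl
  intro i _
  unfold fac
  cases hc : c i with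
  | none =>
    by_cases hi : i ∈ S
    · simp [hi, sgn]
    · simp [hi]
  | some b => rfl

theorem fourier_ind_eq_zero {n : ℕ} (c : Fin n → Option Bool) (S : Finset (Fin n))
    (i : Fin n) (hi : i ∈ S) (hc : c i = none) : fourier (ind c) S = 0 := by
  rw [fourier_ind]
  apply Finset.prod_eq_zero (Finset.mem_univ i)
  simp [hc, hi]

theorem fourier_ind_of_card {n : ℕ} (c : Fin n → Option Bool) (S : Finset (Fin n))
    (h : codim c < S.card) : fourier (ind c) S = 0 := by
  have hex : ∃ i ∈ S, c i = none := by
    by_contra hcon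
    push Not at hcon
    have hsub : S ⊆ Finset.univ.filter (fun i => (c i).isSome) := by
      intro i hi
      simp only [Finset.mem_filter, Finset.mem_univ, true_and]
      exact Option.ne_none_iff_isSome.mp (hcon i hi)
    have hle := Finset.card_le_card hsub
    unfold codim at h
    omega
  obtain ⟨i, hi, hc⟩ := hex
  exact fourier_ind_eq_zero c S i hi hc

theorem prod_half_codim {n : ℕ} (c : Fin n → Option Bool) :
    ∏ i, (if (c i).isSome then (1 / 2 : ℝ) else 1) = (1 / 2 : ℝ) ^ codim c := by
  unfold codim
  rw [← Finset.prod_const, Finset.prod_filter]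

theorem fourier_ind_empty {n : ℕ} (c : Fin n → Option Bool) :
    fourier (ind c) ∅ = (1 / 2 : ℝ) ^ codim c := by
  rw [fourier_ind, ← prod_half_codim]
  apply Finset.prod_congr rfl
  intro i _
  cases hc : c i <;> simp

theorem fourier_ind_singleton {n : ℕ} (c : Fin n → Option Bool) (j : Fin n) :
    fourier (ind c) {j} = sgnO (c j) * (1 / 2 : ℝ) ^ codim c := by
  rw [fourier_ind, ← prod_half_codim]
  have key : ∀ i : Fin n, (match c i with
      | none => if i ∈ ({j} : Finset (Fin n)) then (0 : ℝ) else 1
      | some b => (if i ∈ ({j} : Finset (Fin n)) then sgn b else 1) / 2)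
      = (if i = j then sgnO (c j) else 1) * (if (c i).isSome then (1 / 2 : ℝ) else 1) := by
    intro i
    by_cases hij : i = j
    · subst hij
      cases hc : c i <;> simp [sgnO]
      ring
    · cases hc : c i <;> simp [hij]
  rw [Finset.prod_congr rfl (fun i _ => key i), Finset.prod_mul_distrib]
  congr 1
  rw [Finset.prod_ite_eq']
  simp

theorem sum_sgnO {n : ℕ} (c : Fin n → Option Bool) :
    ∑ j, sgnO (c j) = ((Finset.univ.filter (fun j => c j = some true)).card : ℝ)
      - ((Finset.univ.filter (fun j => c j = some false)).card : ℝ) := by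
  have key : ∀ j : Fin n, sgnO (c j)
      = (if c j = some true then (1 : ℝ) else 0) - (if c j = some false then (1 : ℝ) else 0) := by
    intro j
    cases hc : c j with
    | none => simp [sgnO]
    | some b => cases b <;> simp [sgnO, sgn]
  rw [Finset.sum_congr rfl (fun j _ => key j), Finset.sum_sub_distrib, Finset.sum_boole,
    Finset.sum_boole]

section linear

variable {ι : Type} [Fintype ι] [DecidableEq ι]

theorem fourier_add (F G : (ι → Bool) → ℝ) (S : Finset ι) :
    fourier (fun x => F x + G x) S = fourier F S + fourier G S := by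
  unfold fourier
  rw [← add_div]
  congr 1
  rw [← Finset.sum_add_distrib]
  apply Finset.sum_congr rfl
  intro x _
  ring

theorem fourier_sum {K : Type} (s : Finset K) (w : K → ℝ) (G : K → (ι → Bool) → ℝ)
    (S : Finset ι) :
    fourier (fun x => ∑ k ∈ s, w k * G k x) S = ∑ k ∈ s, w k * fourier (G k) S := by
  unfold fourier
  simp only [← mul_div_assoc]
  rw [← Finset.sum_div]
  congr 1
  simp only [Finset.sum_mul, Finset.mul_sum]
  rw [Finset.sum_comm]
  apply Finset.sum_congr rfl
  intro k _
  apply Finset.sum_congr rfl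
  intro x _
  ring

end linear

section family

variable {n : ℕ} {K : Type} [Fintype K]

open Classical in
/-- The Boolean function that is `false` (that is `-1`) exactly on the union of the cubes of
the family `c`. -/
noncomputable def cubeFun (c : K → Fin n → Option Bool) (x : Fin n → Bool) : Bool :=
  decide (∀ k, ¬ InCube (c k) x)

theorem sgn_cubeFun (c : K → Fin n → Option Bool)
    (hdisj : ∀ k l, k ≠ l → ∃ i b, c k i = some b ∧ c l i = some (!b)) (x : Fin n → Bool) :
    sgn (cubeFun c x) = ind (fun _ => none) x + ∑ k, (-2) * ind (c k) x := by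
  have h1 : ind (fun _ : Fin n => (none : Option Bool)) x = 1 := by
    apply ind_of_mem
    intro i b h
    exact absurd h (by simp)
  rw [h1]
  by_cases h : ∀ k, ¬ InCube (c k) x
  · have h0 : ∀ k, ind (c k) x = 0 := fun k => ind_of_not_mem _ _ (h k)
    have hval : cubeFun c x = true := by
      unfold cubeFun
      simp [h]
    rw [hval]
    simp [h0, sgn]
  · have hval : cubeFun c x = false := by
      unfold cubeFun
      simp [h]
    rw [hval]
    push Not at h
    obtain ⟨k0, hk0⟩ := h
    have hothers : ∀ k, k ≠ k0 → ind (c k) x = 0 := by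
      intro k hk
      apply ind_of_not_mem
      intro hin
      obtain ⟨i, b, e1, e2⟩ := hdisj k k0 hk
      have f1 := hin i b e1
      have f2 := hk0 i (!b) e2
      rw [f1] at f2
      cases b <;> simp at f2
    rw [Finset.sum_eq_single k0 (fun k _ hk => by rw [hothers k hk]; ring)
      (fun hnot => absurd (Finset.mem_univ k0) hnot)]
    rw [ind_of_mem _ _ hk0]
    simp [sgn]
    norm_num

theorem cubeFun_fourier (c : K → Fin n → Option Bool)
    (hdisj : ∀ k l, k ≠ l → ∃ i b, c k i = some b ∧ c l i = some (!b)) (S : Finset (Fin n)) :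
    fourier (fun x => sgn (cubeFun c x)) S
      = fourier (ind (fun _ => none)) S + ∑ k, (-2) * fourier (ind (c k)) S := by
  have hfun : (fun x => sgn (cubeFun c x))
      = fun x => ind (fun _ => none) x + ∑ k, (-2) * ind (c k) x := by
    funext x
    exact sgn_cubeFun c hdisj x
  rw [hfun, fourier_add, fourier_sum]

theorem codim_none : codim (fun _ : Fin n => (none : Option Bool)) = 0 := by
  unfold codim
  simp

theorem cubeFun_degree (c : K → Fin n → Option Bool)
    (hdisj : ∀ k l, k ≠ l → ∃ i b, c k i = some b ∧ c l i = some (!b))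
    (d : ℕ) (hd : ∀ k, codim (c k) ≤ d) :
    degree (fun x => sgn (cubeFun c x)) ≤ d := by
  rw [degree_le_iff]
  intro S hS
  by_contra hcard
  push Not at hcard
  apply hS
  rw [cubeFun_fourier c hdisj S]
  rw [fourier_ind_of_card _ S (by rw [codim_none]; omega)]
  rw [Finset.sum_eq_zero]
  · ring
  · intro k _
    rw [fourier_ind_of_card (c k) S (lt_of_le_of_lt (hd k) hcard)]
    ring

theorem cubeFun_mean (c : K → Fin n → Option Bool)
    (hdisj : ∀ k l, k ≠ l → ∃ i b, c k i = some b ∧ c l i = some (!b)) :
    fourier (fun x => sgn (cubeFun c x)) ∅ = 1 + ∑ k, (-2) * (1 / 2 : ℝ) ^ codim (c k) := by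
  rw [cubeFun_fourier c hdisj ∅, fourier_ind_empty, codim_none]
  simp only [fourier_ind_empty]
  norm_num

theorem cubeFun_levelOne (c : K → Fin n → Option Bool)
    (hdisj : ∀ k l, k ≠ l → ∃ i b, c k i = some b ∧ c l i = some (!b)) :
    ∑ j, fourier (fun x => sgn (cubeFun c x)) {j}
      = ∑ k, (-2) * ((1 / 2 : ℝ) ^ codim (c k) * ∑ j, sgnO (c k j)) := by
  have h : ∀ j : Fin n, fourier (fun x => sgn (cubeFun c x)) {j}
      = ∑ k, (-2) * (sgnO (c k j) * (1 / 2 : ℝ) ^ codim (c k)) := by
    intro j
    rw [cubeFun_fourier c hdisj {j}, fourier_ind_singleton]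
    simp only [fourier_ind_singleton]
    simp [sgnO]
  rw [Finset.sum_congr rfl (fun j _ => h j), Finset.sum_comm]
  apply Finset.sum_congr rfl
  intro k _
  rw [← Finset.mul_sum, Finset.mul_sum (a := (1 / 2 : ℝ) ^ codim (c k))]
  congr 1
  apply Finset.sum_congr rfl
  intro j _
  ring

end family

end Vale.Agent.Lib.P047.H2
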