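import Mathlib

namespace Vale.Agent.Lib.P047.H2

/-- The sign of a bit: `true` stands for `+1` and `false` for `-1`. -/
def sgn (b : Bool) : ℝ := if b then 1 else -1

/-- Level-one Fourier coefficient `E[F(x) x_i]` of `F : {-1,1}^n → ℝ` at the coordinate `i`,
the cube `{-1,1}^n` being encoded as `Fin n → Bool` (`true` is `+1`). -/
noncomputable def fourierOne {n : ℕ} (F : (Fin n → Bool) → ℝ) (i : Fin n) : ℝ :=
  (∑ x : Fin n → Bool, F x * sgn (x i)) / 2 ^ n

/-- A subcube of `{-1,1}^n` is given by a map `c : Fin n → Option Bool` (each coordinate is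
either fixed to a bit or left free); `InCube c x` says that the point `x` lies in it. -/
def InCube {n : ℕ} (c : Fin n → Option Bool) (x : Fin n → Bool) : Prop :=
  ∀ i b, c i = some b → x i = b

/-- The codimension of a subcube: the number of fixed coordinates. -/
def codim {n : ℕ} (c : Fin n → Option Bool) : ℕ :=
  (Finset.univ.filter fun i => (c i).isSome).card

end Vale.Agent.Lib.P047.H2
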