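import Vale.Agent.Lib.P047.H2.AllDegrees

namespace Vale.Agent.Lib.P047.H2

open Finset

/-- The seven cubes `x_k = +1, x_{k-1} = x_{k-2} = x_{k-3} = -1` (indices modulo 7). -/
def fourCube (k : Fin 7) (i : Fin 7) : Option Bool :=
  if i = k then some true
  else if i + 1 = k ∨ i + 2 = k ∨ i + 3 = k then some false
  else none

theorem fourCube_disj : ∀ k l : Fin 7, k ≠ l →
    ∃ i b, fourCube k i = some b ∧ fourCube l i = some (!b) := by
  decide

theorem fourCube_codim : ∀ k : Fin 7, codim (fourCube k) = 4 := by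
  decide

theorem fourCube_counts : ∀ k : Fin 7,
    (Finset.univ.filter (fun j => fourCube k j = some true)).card = 1 ∧
    (Finset.univ.filter (fun j => fourCube k j = some false)).card = 3 := by
  decide

theorem four_degree : degree (fun x => sgn (cubeFun fourCube x)) ≤ 4 :=
  cubeFun_degree fourCube fourCube_disj 4 (fun k => le_of_eq (fourCube_codim k))

theorem four_levelOne : ∑ j, fourier (fun x => sgn (cubeFun fourCube x)) {j} = 7 / 4 := by
  rw [cubeFun_levelOne fourCube fourCube_disj]
  simp only [fourCube_codim, sum_sgnO, (fourCube_counts _).1, (fourCube_counts _).2]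
  simp
  norm_num

/-- `E|X_1 + X_2 + X_3 + X_4| = 3/2`. -/
theorem abs_mean_four : (∑ x : Fin 4 → Bool, |∑ i, sgn (x i)|) / 2 ^ 4 = 3 / 2 := by
  rw [sum_abs_eq_bal, sum_bal_eq_choose 4 (fun t => |((t : ℤ) : ℝ)|)]
  simp [Finset.sum_range_succ, Nat.choose]
  norm_num

/-- A Boolean function of degree at most four on seven variables with level-one sum `7/4`,
which is larger than `E|X_1 + ... + X_4| = 3/2`. -/
theorem exists_degree_four : ∃ F : (Fin 7 → Bool) → Bool,
    degree (fun x => sgn (F x)) ≤ 4 ∧
    ∑ i, fourier (fun x => sgn (F x)) {i} = 7 / 4 :=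
  ⟨cubeFun fourCube, four_degree, four_levelOne⟩

/-- For every degree `d ≥ 4` some Boolean function of degree at most `d` has level-one
sum larger than `E|X_1 + ... + X_d|`. -/
theorem beats_majority_four (d : ℕ) (hd : 4 ≤ d) : ∃ (N : ℕ) (F : (Fin N → Bool) → Bool),
    degree (fun x => sgn (F x)) ≤ d ∧
    (∑ x : Fin d → Bool, |∑ i, sgn (x i)|) / 2 ^ d
      < ∑ i, fourier (fun x => sgn (F x)) {i} := by
  rcases Nat.lt_or_ge d 5 with h | h
  · obtain rfl : d = 4 := by omega
    refine ⟨7, cubeFun fourCube, four_degree, ?_⟩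
    rw [abs_mean_four, four_levelOne]
    norm_num
  · exact beats_majority d h

end Vale.Agent.Lib.P047.H2
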