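import Vale.Agent.Lib.P047.H2.CubeFun

namespace Vale.Agent.Lib.P047.H2

open Finset

/-- The nine cubes `x_{k-1} = +1, x_k = x_{k+1} = x_{k+2} = x_{k+3} = -1` (indices modulo 9). -/
def runCube (k : Fin 9) (i : Fin 9) : Option Bool :=
  if i + 1 = k then some true
  else if i = k ∨ i = k + 1 ∨ i = k + 2 ∨ i = k + 3 then some false
  else none

theorem runCube_disj : ∀ k l : Fin 9, k ≠ l →
    ∃ i b, runCube k i = some b ∧ runCube l i = some (!b) := by
  decide

theorem runCube_codim : ∀ k : Fin 9, codim (runCube k) = 5 := by
  decide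

theorem runCube_counts : ∀ k : Fin 9,
    (Finset.univ.filter (fun j => runCube k j = some true)).card = 1 ∧
    (Finset.univ.filter (fun j => runCube k j = some false)).card = 4 := by
  decide

theorem run_degree : degree (fun x => sgn (cubeFun runCube x)) ≤ 5 :=
  cubeFun_degree runCube runCube_disj 5 (fun k => le_of_eq (runCube_codim k))

theorem run_mean : fourier (fun x => sgn (cubeFun runCube x)) ∅ = 7 / 16 := by
  rw [cubeFun_mean runCube runCube_disj]
  simp only [runCube_codim]
  simp
  norm_num

theorem run_levelOne : ∑ j, fourier (fun x => sgn (cubeFun runCube x)) {j} = 27 / 16 := by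
  rw [cubeFun_levelOne runCube runCube_disj]
  simp only [runCube_codim, sum_sgnO, (runCube_counts _).1, (runCube_counts _).2]
  simp
  norm_num

/-- A balanced Boolean function of degree at most 5 on 10 variables with level-one sum 17/8. -/
theorem exists_degree_five : ∃ F : (Fin 10 → Bool) → Bool,
    fourier (fun x => sgn (F x)) ∅ = 0 ∧
    degree (fun x => sgn (F x)) ≤ 5 ∧
    ∑ i, fourier (fun x => sgn (F x)) {i} = 17 / 8 := by
  obtain ⟨r1, r2, r3⟩ := rename_props (finSuccEquiv 9).symm (oddize true (cubeFun runCube))
  refine ⟨fun y => oddize true (cubeFun runCube) (fun t => y ((finSuccEquiv 9).symm t)), ?_, ?_, ?_⟩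
  · rw [r1]
    exact oddize_mean true _
  · refine le_trans r3 (le_trans (oddize_degree true _) ?_)
    have h := run_degree
    omega
  · rw [r2, oddize_levelOne, run_levelOne, run_mean]
    simp [sgn]
    norm_num

/-- Tensor powers of the degree-5 example. -/
theorem exists_powers_of_five (k : ℕ) : ∃ (N : ℕ) (F : (Fin N → Bool) → Bool),
    fourier (fun x => sgn (F x)) ∅ = 0 ∧
    degree (fun x => sgn (F x)) ≤ 5 ^ (k + 1) ∧
    ∑ i, fourier (fun x => sgn (F x)) {i} = (17 / 8 : ℝ) ^ (k + 1) := by
  obtain ⟨N, F, h1, h2, h3⟩ := amplify 9 (cubeFun runCube) k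
  refine ⟨N, F, h1, ?_, ?_⟩
  · refine le_trans h2 (Nat.pow_le_pow_left ?_ (k + 1))
    have h := run_degree
    omega
  · rw [h3, run_levelOne, run_mean]
    norm_num

/-- Four patterns on `Z_10`, each with five coordinates fixed to `-1` and two fixed to `+1`. -/
def base7 (p : Fin 4) (j : Fin 10) : Option Bool :=
  match p.val, j.val with
  | 0, 0 => some false | 0, 1 => some false | 0, 2 => some false | 0, 3 => some false
  | 0, 5 => some false | 0, 8 => some true | 0, 9 => some true
  | 1, 0 => some false | 1, 1 => some false | 1, 2 => some false | 1, 4 => some false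
  | 1, 5 => some false | 1, 3 => some true | 1, 9 => some true
  | 2, 0 => some false | 2, 2 => some false | 2, 3 => some false | 2, 4 => some false
  | 2, 5 => some false | 2, 1 => some true | 2, 9 => some true
  | 3, 0 => some false | 3, 1 => some false | 3, 4 => some false | 3, 5 => some false
  | 3, 6 => some false | 3, 2 => some true | 3, 9 => some true
  | _, _ => none

/-- The forty cyclic shifts of the four patterns. -/
def cube7 (k : Fin 4 × Fin 10) (i : Fin 10) : Option Bool := base7 k.1 (i - k.2)

set_option maxRecDepth 100000 in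
theorem cube7_disj : ∀ k l : Fin 4 × Fin 10, k ≠ l →
    ∃ i b, cube7 k i = some b ∧ cube7 l i = some (!b) := by
  decide

set_option maxRecDepth 100000 in
theorem cube7_codim : ∀ k : Fin 4 × Fin 10, codim (cube7 k) = 7 := by
  decide

set_option maxRecDepth 100000 in
theorem cube7_counts : ∀ k : Fin 4 × Fin 10,
    (Finset.univ.filter (fun j => cube7 k j = some true)).card = 2 ∧
    (Finset.univ.filter (fun j => cube7 k j = some false)).card = 5 := by
  decide

theorem seven_degree : degree (fun x => sgn (cubeFun cube7 x)) ≤ 7 :=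
  cubeFun_degree cube7 cube7_disj 7 (fun k => le_of_eq (cube7_codim k))

theorem seven_mean : fourier (fun x => sgn (cubeFun cube7 x)) ∅ = 3 / 8 := by
  rw [cubeFun_mean cube7 cube7_disj]
  simp only [cube7_codim]
  simp
  norm_num

theorem seven_levelOne : ∑ j, fourier (fun x => sgn (cubeFun cube7 x)) {j} = 15 / 8 := by
  rw [cubeFun_levelOne cube7 cube7_disj]
  simp only [cube7_codim, sum_sgnO, (cube7_counts _).1, (cube7_counts _).2]
  simp
  norm_num

/-- A balanced Boolean function of degree at most 7 on 11 variables with level-one sum 9/4. -/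
theorem exists_degree_seven : ∃ F : (Fin 11 → Bool) → Bool,
    fourier (fun x => sgn (F x)) ∅ = 0 ∧
    degree (fun x => sgn (F x)) ≤ 7 ∧
    ∑ i, fourier (fun x => sgn (F x)) {i} = 9 / 4 := by
  obtain ⟨r1, r2, r3⟩ := rename_props (finSuccEquiv 10).symm (oddize true (cubeFun cube7))
  refine ⟨fun y => oddize true (cubeFun cube7) (fun t => y ((finSuccEquiv 10).symm t)), ?_, ?_, ?_⟩
  · rw [r1]
    exact oddize_mean true _
  · refine le_trans r3 (le_trans (oddize_degree true _) ?_)
    have h := seven_degree
    omega
  · rw [r2, oddize_levelOne, seven_levelOne, seven_mean]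
    simp [sgn]
    norm_num

end Vale.Agent.Lib.P047.H2
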