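import Vale.Agent.Lib.P047.H2.Defs

namespace Vale.Agent.Lib.P047.H2

/-- The Fourier coefficient `E[F(x) ∏_{i ∈ S} x_i]` of `F : {-1,1}^ι → ℝ` at the set `S`, the
cube `{-1,1}^ι` being encoded as `ι → Bool` (`true` is `+1`). -/
noncomputable def fourier {ι : Type} [Fintype ι] [DecidableEq ι] (F : (ι → Bool) → ℝ)
    (S : Finset ι) : ℝ :=
  (∑ x : ι → Bool, F x * ∏ i ∈ S, sgn (x i)) / 2 ^ Fintype.card ι

open Classical in
/-- The degree of `F`: the largest size of a set `S` with nonzero Fourier coefficient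
(and `0` if there is none). -/
noncomputable def degree {ι : Type} [Fintype ι] [DecidableEq ι] (F : (ι → Bool) → ℝ) : ℕ :=
  (Finset.univ.filter fun S : Finset ι => fourier F S ≠ 0).sup Finset.card

end Vale.Agent.Lib.P047.H2
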