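import Vale.Agent.Lib.P047.H2.FDefs

namespace Vale.Agent.Lib.P047.H2

open Finset

section general

variable {ι : Type} [Fintype ι] [DecidableEq ι]

/-- product rule for sums over the cube -/
theorem sum_prod_coord (φ : ι → Bool → ℝ) :
    ∑ x : ι → Bool, ∏ i, φ i (x i) = ∏ i, (φ i true + φ i false) := by
  have h2 := Finset.prod_univ_sum (fun _ : ι => (Finset.univ : Finset Bool)) φ
  rw [Fintype.piFinset_univ] at h2
  rw [← h2]
  apply Finset.prod_congr rfl
  intro i _
  simp

theorem sgn_mul_self (b : Bool) : sgn b * sgn b = 1 := by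
  cases b <;> simp [sgn]

theorem sgn_true_add_sgn_false : sgn true + sgn false = 0 := by
  simp [sgn]

/-- sum of a character over the cube -/
theorem sum_chi (U : Finset ι) :
    ∑ x : ι → Bool, ∏ i ∈ U, sgn (x i) = if U = ∅ then (2 : ℝ) ^ Fintype.card ι else 0 := by
  have h1 : ∀ x : ι → Bool, ∏ i ∈ U, sgn (x i) = ∏ i, (if i ∈ U then sgn (x i) else 1) := by
    intro x
    rw [Finset.prod_ite_mem, Finset.univ_inter]
  rw [Finset.sum_congr rfl (fun x _ => h1 x),
    sum_prod_coord (fun i b => if i ∈ U then sgn b else 1)]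
  by_cases hU : U = ∅
  · subst hU
    simp
    norm_num
  · rw [if_neg hU]
    obtain ⟨i, hi⟩ := Finset.nonempty_iff_ne_empty.mpr hU
    apply Finset.prod_eq_zero (Finset.mem_univ i)
    simp [hi, sgn]

/-- dual orthogonality -/
theorem sum_chi_dual (x y : ι → Bool) :
    ∑ S : Finset ι, (∏ i ∈ S, sgn (y i)) * (∏ i ∈ S, sgn (x i))
      = if y = x then (2 : ℝ) ^ Fintype.card ι else 0 := by
  have h1 : ∀ S : Finset ι, (∏ i ∈ S, sgn (y i)) * (∏ i ∈ S, sgn (x i))
      = ∏ i ∈ S, (sgn (y i) * sgn (x i)) := by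
    intro S
    rw [Finset.prod_mul_distrib]
  rw [Finset.sum_congr rfl (fun S _ => h1 S)]
  have h2 := Finset.prod_one_add (f := fun i => sgn (y i) * sgn (x i)) (Finset.univ : Finset ι)
  rw [Finset.powerset_univ] at h2
  rw [← h2]
  by_cases hxy : y = x
  · subst hxy
    rw [if_pos rfl]
    have : ∀ i : ι, (1 : ℝ) + sgn (y i) * sgn (y i) = 2 := by
      intro i
      rw [sgn_mul_self]
      norm_num
    rw [Finset.prod_congr rfl (fun i _ => this i)]
    simp
  · rw [if_neg hxy]
    have : ∃ i, y i ≠ x i := by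
      by_contra hcon
      push Not at hcon
      exact hxy (funext hcon)
    obtain ⟨i, hi⟩ := this
    apply Finset.prod_eq_zero (Finset.mem_univ i)
    cases hy : y i <;> cases hx : x i <;> simp_all [sgn]

/-- Fourier inversion -/
theorem fourier_inversion (F : (ι → Bool) → ℝ) (x : ι → Bool) :
    F x = ∑ S : Finset ι, fourier F S * ∏ i ∈ S, sgn (x i) := by
  unfold fourier
  have h1 : ∀ S : Finset ι, (∑ y : ι → Bool, F y * ∏ i ∈ S, sgn (y i)) / 2 ^ Fintype.card ι *
      ∏ i ∈ S, sgn (x i)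
      = ∑ y : ι → Bool, F y * ((∏ i ∈ S, sgn (y i)) * (∏ i ∈ S, sgn (x i))) / 2 ^ Fintype.card ι := by
    intro S
    rw [Finset.sum_div, Finset.sum_mul]
    apply Finset.sum_congr rfl
    intro y _
    ring
  rw [Finset.sum_congr rfl (fun S _ => h1 S), Finset.sum_comm]
  have h2 : ∀ y : ι → Bool, ∑ S : Finset ι,
      F y * ((∏ i ∈ S, sgn (y i)) * (∏ i ∈ S, sgn (x i))) / 2 ^ Fintype.card ι
      = F y * (if y = x then (2 : ℝ) ^ Fintype.card ι else 0) / 2 ^ Fintype.card ι := by
    intro y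
    rw [← sum_chi_dual x y, Finset.mul_sum, Finset.sum_div]
  rw [Finset.sum_congr rfl (fun y _ => h2 y)]
  have h3 : ∀ y : ι → Bool, F y * (if y = x then (2 : ℝ) ^ Fintype.card ι else 0) /
      2 ^ Fintype.card ι = if y = x then F y else 0 := by
    intro y
    have hpow : (2 : ℝ) ^ Fintype.card ι ≠ 0 := by positivity
    split_ifs
    · field_simp
    · simp
  rw [Finset.sum_congr rfl (fun y _ => h3 y)]
  simp

end general

end Vale.Agent.Lib.P047.H2
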