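import Vale.Agent.Lib.P047.H2.Examples

namespace Vale.Agent.Lib.P047.H2

open Finset

section sumtype

variable {ι κ : Type} [Fintype ι] [DecidableEq ι] [Fintype κ] [DecidableEq κ]

/-- Fourier coefficients of a product of two functions of disjoint blocks of variables. -/
theorem fourier_sum_mul (φ : (ι → Bool) → ℝ) (ψ : (κ → Bool) → ℝ) (T : Finset (ι ⊕ κ)) :
    fourier (fun z : ι ⊕ κ → Bool => φ (fun i => z (Sum.inl i)) * ψ (fun j => z (Sum.inr j))) T
      = fourier φ T.toLeft * fourier ψ T.toRight := by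
  unfold fourier
  rw [Fintype.card_sum, pow_add]
  have hsum : ∑ z : ι ⊕ κ → Bool,
        (φ (fun i => z (Sum.inl i)) * ψ (fun j => z (Sum.inr j))) * ∏ t ∈ T, sgn (z t)
      = (∑ x : ι → Bool, φ x * ∏ i ∈ T.toLeft, sgn (x i))
        * (∑ y : κ → Bool, ψ y * ∏ j ∈ T.toRight, sgn (y j)) := by
    have h1 := Equiv.sum_comp (Equiv.sumArrowEquivProdArrow ι κ Bool).symm
      (fun z : ι ⊕ κ → Bool =>
        (φ (fun i => z (Sum.inl i)) * ψ (fun j => z (Sum.inr j))) * ∏ t ∈ T, sgn (z t))
    rw [← h1, Fintype.sum_prod_type, Finset.sum_mul_sum]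
    apply Finset.sum_congr rfl
    intro x _
    apply Finset.sum_congr rfl
    intro y _
    have hprod : ∏ t ∈ T, sgn (Sum.elim x y t)
        = (∏ i ∈ T.toLeft, sgn (x i)) * ∏ j ∈ T.toRight, sgn (y j) := by
      conv_lhs => rw [← Finset.toLeft_disjSum_toRight (u := T)]
      rw [Finset.prod_disjSum]
      rfl
    show (φ (fun i => Sum.elim x y (Sum.inl i)) * ψ (fun j => Sum.elim x y (Sum.inr j)))
        * ∏ t ∈ T, sgn (Sum.elim x y t) = _
    rw [hprod]
    simp only [Sum.elim_inl, Sum.elim_inr]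
    ring
  rw [hsum]
  have h2 : (2 : ℝ) ^ Fintype.card ι ≠ 0 := by positivity
  have h3 : (2 : ℝ) ^ Fintype.card κ ≠ 0 := by positivity
  field_simp

/-- Fourier coefficients of the constant function `1`. -/
theorem fourier_one (A : Finset ι) :
    fourier (fun _ : ι → Bool => (1 : ℝ)) A = if A = ∅ then 1 else 0 := by
  unfold fourier
  simp only [one_mul]
  rw [sum_chi]
  have h2 : (2 : ℝ) ^ Fintype.card ι ≠ 0 := by positivity
  split_ifs
  · field_simp
  · simp

/-- An even function has no Fourier coefficient on a set of odd size. -/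
theorem fourier_even_odd_card (h : (κ → Bool) → ℝ)
    (heven : ∀ y : κ → Bool, h (fun j => !(y j)) = h y) (R : Finset κ) (hR : Odd R.card) :
    fourier h R = 0 := by
  unfold fourier
  let e : (κ → Bool) ≃ (κ → Bool) :=
    ⟨fun y j => !(y j), fun y j => !(y j), fun y => by funext j; simp, fun y => by funext j; simp⟩
  have he : ∀ y : κ → Bool, e y = fun j => !(y j) := by
    intro y
    rfl
  have h1 := Equiv.sum_comp e (fun y : κ → Bool => h y * ∏ j ∈ R, sgn (y j))
  have h2 : ∑ y : κ → Bool, (fun y : κ → Bool => h y * ∏ j ∈ R, sgn (y j)) (e y)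
      = - ∑ y : κ → Bool, h y * ∏ j ∈ R, sgn (y j) := by
    rw [← Finset.sum_neg_distrib]
    apply Finset.sum_congr rfl
    intro y _
    show h (e y) * ∏ j ∈ R, sgn (e y j) = -(h y * ∏ j ∈ R, sgn (y j))
    rw [he y, heven]
    have hp : ∏ j ∈ R, sgn (!(y j)) = (-1) ^ R.card * ∏ j ∈ R, sgn (y j) := by
      rw [← Finset.prod_const, ← Finset.prod_mul_distrib]
      apply Finset.prod_congr rfl
      intro j _
      cases y j <;> simp [sgn]
    rw [hp, Odd.neg_one_pow hR]
    ring
  have h3 : ∑ y : κ → Bool, h y * ∏ j ∈ R, sgn (y j) = 0 := by linarith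
  rw [h3, zero_div]

end sumtype

/-- The balance of a point of the cube: number of `+1` coordinates minus number of `-1`
coordinates, that is `x_1 + ... + x_k`. -/
def bal {k : ℕ} (y : Fin k → Bool) : ℤ := ∑ j, (if y j then 1 else -1)

theorem bal_cast {k : ℕ} (y : Fin k → Bool) : ((bal y : ℤ) : ℝ) = ∑ j, sgn (y j) := by
  unfold bal
  push_cast
  apply Finset.sum_congr rfl
  intro j _
  cases y j <;> simp [sgn]

theorem bal_neg {k : ℕ} (y : Fin k → Bool) : bal (fun j => !(y j)) = - bal y := by
  unfold bal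
  rw [← Finset.sum_neg_distrib]
  apply Finset.sum_congr rfl
  intro j _
  rcases h : y j with _ | _ <;> simp [h]

/-- The threshold function with one heavy gadget: on the cube over `ι ⊕ Fin k` it is the
value of the gadget `G` (read on the `ι` block) when the `Fin k` block `y` has
`|y_1 + ... + y_k| = 1`, and the sign of `y_1 + ... + y_k` otherwise.  For odd `k` this is
the sign of `2 G(x) + y_1 + ... + y_k`. -/
def thrG {ι : Type} (G : (ι → Bool) → Bool) (k : ℕ) : (ι ⊕ Fin k → Bool) → Bool :=
  fun z => if (bal (fun j => z (Sum.inr j))).natAbs = 1 then G (fun i => z (Sum.inl i))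
    else decide (0 < bal (fun j => z (Sum.inr j)))

/-- indicator of the tie layer `|y_1 + ... + y_k| = 1` -/
def tieF {k : ℕ} (y : Fin k → Bool) : ℝ := if (bal y).natAbs = 1 then 1 else 0

/-- the majority sign outside the tie layer -/
def majF {k : ℕ} (y : Fin k → Bool) : ℝ :=
  if (bal y).natAbs = 1 then 0 else if 0 < bal y then 1 else -1

theorem tieF_even {k : ℕ} (y : Fin k → Bool) : tieF (fun j => !(y j)) = tieF y := by
  unfold tieF
  rw [bal_neg, Int.natAbs_neg]

theorem sgn_thrG {ι : Type} (G : (ι → Bool) → Bool) (k : ℕ) (z : ι ⊕ Fin k → Bool) :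
    sgn (thrG G k z) = sgn (G (fun i => z (Sum.inl i))) * tieF (fun j => z (Sum.inr j))
      + 1 * majF (fun j => z (Sum.inr j)) := by
  unfold thrG tieF majF
  by_cases h : (bal (fun j => z (Sum.inr j))).natAbs = 1
  · simp [h]
  · by_cases h2 : 0 < bal (fun j => z (Sum.inr j))
    · simp [h, h2, sgn]
    · simp [h, h2, sgn]

section gadget

variable {ι : Type} [Fintype ι] [DecidableEq ι]

theorem fourier_thrG (G : (ι → Bool) → Bool) (k : ℕ) (T : Finset (ι ⊕ Fin k)) :
    fourier (fun z => sgn (thrG G k z)) T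
      = fourier (fun x => sgn (G x)) T.toLeft * fourier (tieF (k := k)) T.toRight
        + (if T.toLeft = ∅ then 1 else 0) * fourier (majF (k := k)) T.toRight := by
  have h1 : (fun z : ι ⊕ Fin k → Bool => sgn (thrG G k z))
      = fun z => sgn (G (fun i => z (Sum.inl i))) * tieF (fun j => z (Sum.inr j))
          + 1 * majF (fun j => z (Sum.inr j)) := by
    funext z
    exact sgn_thrG G k z
  rw [h1, fourier_add, fourier_sum_mul (fun x => sgn (G x)) tieF T,
    fourier_sum_mul (fun _ => (1 : ℝ)) majF T, fourier_one]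

theorem thrG_degree (G : (ι → Bool) → Bool) (d0 k : ℕ) (hd0 : 1 ≤ d0)
    (hG : degree (fun x => sgn (G x)) ≤ d0) (hk : Odd k) :
    degree (fun z => sgn (thrG G k z)) ≤ d0 + k - 1 := by
  rw [degree_le_iff]
  intro T hT
  rw [fourier_thrG] at hT
  have hcard := Finset.card_toLeft_add_card_toRight (u := T)
  have hr : T.toRight.card ≤ k := by
    have := Finset.card_le_univ T.toRight
    simpa using this
  by_cases hl : T.toLeft = ∅
  · rw [hl, Finset.card_empty] at hcard
    omega
  · rw [if_neg hl, zero_mul, add_zero] at hT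
    have hg : fourier (fun x => sgn (G x)) T.toLeft ≠ 0 := left_ne_zero_of_mul hT
    have ht : fourier (tieF (k := k)) T.toRight ≠ 0 := right_ne_zero_of_mul hT
    have hgc : T.toLeft.card ≤ d0 := le_trans (card_le_degree _ _ hg) hG
    have hnodd : ¬ Odd T.toRight.card := by
      intro hodd
      exact ht (fourier_even_odd_card _ tieF_even _ hodd)
    rw [Nat.not_odd_iff_even] at hnodd
    obtain ⟨a, ha⟩ := hnodd
    obtain ⟨b, hb⟩ := hk
    omega

theorem thrG_levelOne (G : (ι → Bool) → Bool) (k : ℕ) :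
    ∑ t, fourier (fun z => sgn (thrG G k z)) {t}
      = (∑ i, fourier (fun x => sgn (G x)) {i}) * fourier (tieF (k := k)) ∅
        + ∑ j, fourier (majF (k := k)) {j} := by
  rw [Fintype.sum_sum_type]
  have hl : ∀ i : ι, fourier (fun z => sgn (thrG G k z)) {Sum.inl i}
      = fourier (fun x => sgn (G x)) {i} * fourier (tieF (k := k)) ∅ := by
    intro i
    rw [fourier_thrG]
    have e1 : ({Sum.inl i} : Finset (ι ⊕ Fin k)).toLeft = {i} := by
      ext a
      simp
    have e2 : ({Sum.inl i} : Finset (ι ⊕ Fin k)).toRight = ∅ := by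
      ext a
      simp
    rw [e1, e2, if_neg (Finset.singleton_ne_empty i), zero_mul, add_zero]
  have hr : ∀ j : Fin k, fourier (fun z => sgn (thrG G k z)) {Sum.inr j}
      = fourier (majF (k := k)) {j} := by
    intro j
    rw [fourier_thrG]
    have e1 : ({Sum.inr j} : Finset (ι ⊕ Fin k)).toLeft = ∅ := by
      ext a
      simp
    have e2 : ({Sum.inr j} : Finset (ι ⊕ Fin k)).toRight = {j} := by
      ext a
      simp
    rw [e1, e2, if_pos rfl, one_mul,
      fourier_even_odd_card _ tieF_even {j} (by simp), mul_zero, zero_add]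
  rw [Finset.sum_congr rfl (fun i _ => hl i), Finset.sum_congr rfl (fun j _ => hr j),
    Finset.sum_mul]

end gadget

end Vale.Agent.Lib.P047.H2
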