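import Vale.Agent.Lib.P047.H2.Compose2

namespace Vale.Agent.Lib.P047.H2

open Finset

/-- multiplication of signs, on `Bool` -/
def mulb (a b : Bool) : Bool := decide (a = b)

theorem sgn_mulb (a b : Bool) : sgn (mulb a b) = sgn a * sgn b := by
  cases a <;> cases b <;> simp [mulb, sgn]

theorem mulb_mulb (a b : Bool) : mulb a (mulb a b) = b := by
  cases a <;> cases b <;> rfl

/-- Oddization: from `f(x)` to the odd function `(x, z) ↦ s z f(s z x)`; the new variable `z`
is the coordinate `none`, and `s` is a fixed sign. -/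
def oddize {ι : Type} (s : Bool) (f : (ι → Bool) → Bool) : (Option ι → Bool) → Bool :=
  fun x => mulb (mulb s (x none)) (f (fun i => mulb (mulb s (x none)) (x (some i))))

theorem sgn_pow (b : Bool) (k : ℕ) : sgn b ^ k = if Even k then 1 else sgn b := by
  cases b
  · simp only [sgn, Bool.false_eq_true, if_false]
    split_ifs with h
    · exact Even.neg_one_pow h
    · exact Odd.neg_one_pow (Nat.not_even_iff_odd.mp h)
  · simp [sgn]

section

variable {ι : Type} [Fintype ι] [DecidableEq ι]

/-- the twisting bijection of the cube -/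
def twist (a : Bool) : (ι → Bool) ≃ (ι → Bool) where
  toFun x := fun i => mulb a (x i)
  invFun x := fun i => mulb a (x i)
  left_inv x := by
    funext i
    exact mulb_mulb a (x i)
  right_inv x := by
    funext i
    exact mulb_mulb a (x i)

theorem inner_sum (a : Bool) (f : (ι → Bool) → Bool) (S : Finset ι) :
    ∑ x : ι → Bool, sgn (mulb a (f (fun i => mulb a (x i)))) * ∏ i ∈ S, sgn (x i)
      = sgn a ^ (S.card + 1) * (2 ^ Fintype.card ι * fourier (fun y => sgn (f y)) S) := by
  have hterm : ∀ x : ι → Bool, sgn (mulb a (f (fun i => mulb a (x i)))) * ∏ i ∈ S, sgn (x i)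
      = sgn a ^ (S.card + 1) *
        (fun y : ι → Bool => sgn (f y) * ∏ i ∈ S, sgn (y i)) (twist a x) := by
    intro x
    have h1 : ∏ i ∈ S, sgn (x i) = sgn a ^ S.card * ∏ i ∈ S, sgn (mulb a (x i)) := by
      rw [← Finset.prod_const, ← Finset.prod_mul_distrib]
      apply Finset.prod_congr rfl
      intro i _
      rw [sgn_mulb, ← mul_assoc, sgn_mul_self, one_mul]
    rw [h1, sgn_mulb]
    show sgn a * sgn (f (fun i => mulb a (x i))) * (sgn a ^ S.card * ∏ i ∈ S, sgn (mulb a (x i)))
      = sgn a ^ (S.card + 1) * (sgn (f (fun i => mulb a (x i))) * ∏ i ∈ S, sgn (mulb a (x i)))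
    ring
  rw [Finset.sum_congr rfl (fun x _ => hterm x), ← Finset.mul_sum,
    Equiv.sum_comp (twist a) (fun y : ι → Bool => sgn (f y) * ∏ i ∈ S, sgn (y i))]
  congr 1
  unfold fourier
  have hpow : (2 : ℝ) ^ Fintype.card ι ≠ 0 := by positivity
  field_simp

/-- sum over the cube with one more coordinate -/
theorem sum_option (H : (Option ι → Bool) → ℝ) :
    ∑ x : Option ι → Bool, H x
      = ∑ z : Bool, ∑ x' : ι → Bool, H (fun o => Option.casesOn o z x') := by
  rw [← Fintype.sum_prod_type (f := fun p : Bool × (ι → Bool) => H (fun o => Option.casesOn o p.1 p.2))]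
  rw [← Equiv.sum_comp (Equiv.piOptionEquivProd (α := ι) (β := fun _ => Bool))
    (fun p : Bool × (ι → Bool) => H (fun o => Option.casesOn o p.1 p.2))]
  apply Finset.sum_congr rfl
  intro x _
  congr 1
  funext o
  cases o <;> rfl

theorem fourier_oddize_some (s : Bool) (f : (ι → Bool) → Bool) (S : Finset ι) :
    fourier (fun x => sgn (oddize s f x)) (S.map Function.Embedding.some)
      = if Odd S.card then fourier (fun y => sgn (f y)) S else 0 := by
  have hL : fourier (fun x => sgn (oddize s f x)) (S.map Function.Embedding.some)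
      = (∑ x : Option ι → Bool, sgn (oddize s f x) *
          ∏ i ∈ S.map Function.Embedding.some, sgn (x i)) / 2 ^ Fintype.card (Option ι) := rfl
  rw [hL, sum_option]
  have hz : ∀ z : Bool, ∑ x' : ι → Bool,
      sgn (oddize s f (fun o => Option.casesOn o z x')) *
        ∏ i ∈ S.map Function.Embedding.some, sgn ((fun o => Option.casesOn o z x' : Option ι → Bool) i)
      = sgn (mulb s z) ^ (S.card + 1) * (2 ^ Fintype.card ι * fourier (fun y => sgn (f y)) S) := by
    intro z
    rw [← inner_sum (mulb s z) f S]
    apply Finset.sum_congr rfl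
    intro x' _
    rw [Finset.prod_map]
    rfl
  rw [Finset.sum_congr rfl (fun z _ => hz z), Fintype.sum_bool, Fintype.card_option]
  have hpow : (2 : ℝ) ^ Fintype.card ι ≠ 0 := by positivity
  rw [sgn_pow, sgn_pow]
  by_cases hodd : Odd S.card
  · have heven : Even (S.card + 1) := hodd.add_one
    rw [if_pos heven, if_pos heven, if_pos hodd, pow_succ]
    field_simp
    ring
  · have heven : ¬ Even (S.card + 1) := by
      intro h
      apply hodd
      rcases Nat.even_or_odd S.card with he | ho
      · exact absurd h (Nat.not_even_iff_odd.mpr he.add_one)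
      · exact ho
    rw [if_neg heven, if_neg heven, if_neg hodd]
    cases s <;> simp [mulb, sgn]

theorem fourier_oddize_none (s : Bool) (f : (ι → Bool) → Bool) (S : Finset ι) :
    fourier (fun x => sgn (oddize s f x)) (Finset.insertNone S)
      = if Even S.card then sgn s * fourier (fun y => sgn (f y)) S else 0 := by
  have hL : fourier (fun x => sgn (oddize s f x)) (Finset.insertNone S)
      = (∑ x : Option ι → Bool, sgn (oddize s f x) *
          ∏ i ∈ Finset.insertNone S, sgn (x i)) / 2 ^ Fintype.card (Option ι) := rfl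
  rw [hL, sum_option]
  have hz : ∀ z : Bool, ∑ x' : ι → Bool,
      sgn (oddize s f (fun o => Option.casesOn o z x')) *
        ∏ i ∈ Finset.insertNone S, sgn ((fun o => Option.casesOn o z x' : Option ι → Bool) i)
      = sgn z * (sgn (mulb s z) ^ (S.card + 1) *
          (2 ^ Fintype.card ι * fourier (fun y => sgn (f y)) S)) := by
    intro z
    rw [← inner_sum (mulb s z) f S, Finset.mul_sum]
    apply Finset.sum_congr rfl
    intro x' _
    rw [Finset.prod_insertNone]
    show sgn (mulb (mulb s z) (f (fun i => mulb (mulb s z) (x' i)))) * (sgn z * ∏ i ∈ S, sgn (x' i))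
      = sgn z * (sgn (mulb (mulb s z) (f (fun i => mulb (mulb s z) (x' i)))) * ∏ i ∈ S, sgn (x' i))
    ring
  rw [Finset.sum_congr rfl (fun z _ => hz z), Fintype.sum_bool, Fintype.card_option]
  have hpow : (2 : ℝ) ^ Fintype.card ι ≠ 0 := by positivity
  rw [sgn_pow, sgn_pow]
  by_cases heven : Even S.card
  · have hodd : ¬ Even (S.card + 1) := Nat.not_even_iff_odd.mpr heven.add_one
    rw [if_neg hodd, if_neg hodd, if_pos heven, pow_succ]
    cases s
    · simp only [mulb, sgn]
      simp
      field_simp
      ring
    · simp only [mulb, sgn]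
      simp
      field_simp
      ring
  · have hev : Even (S.card + 1) := (Nat.not_even_iff_odd.mp heven).add_one
    rw [if_pos hev, if_pos hev, if_neg heven]
    simp [sgn]

end

end Vale.Agent.Lib.P047.H2
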