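import Vale.Agent.Lib.P047.H2.Tilt

namespace Vale.Agent.Lib.P047.H2

open Finset

/-- quadratic optimisation -/
theorem quad_lemma (W D M : ℝ) (hD : 0 ≤ D) (h : ∀ τ : ℝ, τ * W - τ ^ 2 * D / 2 ≤ M) :
    W ^ 2 ≤ 2 * M * D := by
  rcases hD.lt_or_eq with hD | hD
  · have h1 := h (W / D)
    have e : W / D * W - (W / D) ^ 2 * D / 2 = W ^ 2 / (2 * D) := by field_simp; ring
    rw [e] at h1
    rw [div_le_iff₀ (by positivity)] at h1
    linarith
  · subst hD
    by_contra hne
    have hW : W ≠ 0 := by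
      intro h0
      apply hne
      rw [h0]
      simp
    have h1 := h ((M + 1) / W)
    have e : (M + 1) / W * W - ((M + 1) / W) ^ 2 * 0 / 2 = M + 1 := by field_simp; ring
    rw [e] at h1
    linarith

/-- The basic inequality obtained from a tilted product measure. -/
theorem conical_core {n : ℕ} (cubes : Finset (Fin n → Option Bool))
    (w : (Fin n → Option Bool) → ℝ) (hw : ∀ c ∈ cubes, 0 ≤ w c)
    (h1 : ∀ x : Fin n → Bool, ∑ c ∈ cubes, w c * ind c x ≤ 1)
    (ε : Fin n → Bool) (τ L : ℝ) :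
    Real.exp L * ∑ c ∈ cubes, w c * ((1 / 2 : ℝ) ^ codim c *
      (1 + τ * sgnSum c ε - codim c * (τ ^ 2 / 2) - L)) ≤ 1 := by
  have hρ : ∀ x : Fin n → Bool, 0 ≤ ∏ i, Real.exp (τ * sgn (ε i) * sgn (x i)) := by
    intro x
    apply Finset.prod_nonneg
    intro i _
    exact (Real.exp_pos _).le
  have hA : ∑ x : Fin n → Bool, (∑ c ∈ cubes, w c * ind c x) *
      ∏ i, Real.exp (τ * sgn (ε i) * sgn (x i)) ≤ (2 * Real.cosh τ) ^ n := by
    rw [← sum_tilt ε τ]
    apply Finset.sum_le_sum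
    intro x _
    calc (∑ c ∈ cubes, w c * ind c x) * ∏ i, Real.exp (τ * sgn (ε i) * sgn (x i))
        ≤ 1 * ∏ i, Real.exp (τ * sgn (ε i) * sgn (x i)) :=
          mul_le_mul_of_nonneg_right (h1 x) (hρ x)
      _ = ∏ i, Real.exp (τ * sgn (ε i) * sgn (x i)) := one_mul _
  have hB : ∑ x : Fin n → Bool, (∑ c ∈ cubes, w c * ind c x) *
      ∏ i, Real.exp (τ * sgn (ε i) * sgn (x i))
      = ∑ c ∈ cubes, w c * ∑ x : Fin n → Bool, ind c x *
        ∏ i, Real.exp (τ * sgn (ε i) * sgn (x i)) := by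
    simp only [Finset.sum_mul, Finset.mul_sum]
    rw [Finset.sum_comm]
    apply Finset.sum_congr rfl
    intro c _
    apply Finset.sum_congr rfl
    intro x _
    ring
  have hC : ∑ c ∈ cubes, w c * ((2 * Real.cosh τ) ^ n * ((1 / 2 : ℝ) ^ codim c *
        (Real.exp L * (1 + τ * sgnSum c ε - codim c * (τ ^ 2 / 2) - L))))
      ≤ ∑ c ∈ cubes, w c * ∑ x : Fin n → Bool, ind c x *
        ∏ i, Real.exp (τ * sgn (ε i) * sgn (x i)) := by
    apply Finset.sum_le_sum
    intro c hc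
    exact mul_le_mul_of_nonneg_left (tilt_cube_lower c ε τ L) (hw c hc)
  have hD : ∑ c ∈ cubes, w c * ((2 * Real.cosh τ) ^ n * ((1 / 2 : ℝ) ^ codim c *
        (Real.exp L * (1 + τ * sgnSum c ε - codim c * (τ ^ 2 / 2) - L))))
      = (2 * Real.cosh τ) ^ n * (Real.exp L * ∑ c ∈ cubes, w c * ((1 / 2 : ℝ) ^ codim c *
      (1 + τ * sgnSum c ε - codim c * (τ ^ 2 / 2) - L))) := by
    simp only [Finset.mul_sum]
    apply Finset.sum_congr rfl
    intro c _
    ring
  have hpos : (0 : ℝ) < (2 * Real.cosh τ) ^ n := by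
    have := Real.cosh_pos τ
    positivity
  have hE : (2 * Real.cosh τ) ^ n * (Real.exp L * ∑ c ∈ cubes, w c * ((1 / 2 : ℝ) ^ codim c *
      (1 + τ * sgnSum c ε - codim c * (τ ^ 2 / 2) - L))) ≤ (2 * Real.cosh τ) ^ n * 1 := by
    rw [mul_one, ← hD]
    exact le_trans hC (hB ▸ hA)
  exact le_of_mul_le_mul_left hE hpos

/-- level-one coefficients of a conical combination of cubes -/
theorem fourierOne_conical {n : ℕ} (cubes : Finset (Fin n → Option Bool))
    (w : (Fin n → Option Bool) → ℝ) (i : Fin n) :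
    fourierOne (fun x => ∑ c ∈ cubes, w c * ind c x) i
      = ∑ c ∈ cubes, w c * (1 / 2 : ℝ) ^ codim c * sig (c i) := by
  unfold fourierOne
  have e : ∑ x : Fin n → Bool, (∑ c ∈ cubes, w c * ind c x) * sgn (x i)
      = ∑ c ∈ cubes, w c * ∑ x : Fin n → Bool, ind c x * sgn (x i) := by
    simp only [Finset.sum_mul, Finset.mul_sum]
    rw [Finset.sum_comm]
    apply Finset.sum_congr rfl
    intro c _
    apply Finset.sum_congr rfl
    intro x _
    ring
  rw [e, Finset.sum_div]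
  apply Finset.sum_congr rfl
  intro c _
  rw [sum_ind_sgn]
  have : (2 : ℝ) ^ n ≠ 0 := by positivity
  field_simp

/-- mean of a conical combination of cubes -/
theorem mean_conical {n : ℕ} (cubes : Finset (Fin n → Option Bool))
    (w : (Fin n → Option Bool) → ℝ) :
    (∑ x : Fin n → Bool, ∑ c ∈ cubes, w c * ind c x) / 2 ^ n
      = ∑ c ∈ cubes, w c * (1 / 2 : ℝ) ^ codim c := by
  rw [Finset.sum_comm, Finset.sum_div]
  apply Finset.sum_congr rfl
  intro c _
  rw [← Finset.mul_sum, sum_ind]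
  have : (2 : ℝ) ^ n ≠ 0 := by positivity
  field_simp

/-- One-sided level-one inequality for conical combinations of subcubes. -/
theorem conical_bound {n : ℕ} (cubes : Finset (Fin n → Option Bool))
    (w : (Fin n → Option Bool) → ℝ) (hw : ∀ c ∈ cubes, 0 ≤ w c)
    (h1 : ∀ x : Fin n → Bool, ∑ c ∈ cubes, w c * ind c x ≤ 1) :
    (∑ i, |fourierOne (fun x => ∑ c ∈ cubes, w c * ind c x) i|) ^ 2
      ≤ 2 * ((∑ c ∈ cubes, w c * (1 / 2 : ℝ) ^ codim c) *
          Real.log (1 / ∑ c ∈ cubes, w c * (1 / 2 : ℝ) ^ codim c)) *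
        ∑ c ∈ cubes, w c * (1 / 2 : ℝ) ^ codim c * codim c := by
  set μ := ∑ c ∈ cubes, w c * (1 / 2 : ℝ) ^ codim c with hμ
  set Δ := ∑ c ∈ cubes, w c * (1 / 2 : ℝ) ^ codim c * codim c with hΔ
  have hv : ∀ c ∈ cubes, 0 ≤ w c * (1 / 2 : ℝ) ^ codim c := by
    intro c hc
    have := hw c hc
    positivity
  have hμ0 : 0 ≤ μ := Finset.sum_nonneg hv
  have hΔ0 : 0 ≤ Δ := by
    apply Finset.sum_nonneg
    intro c hc
    have := hv c hc
    positivity
  -- choose signs
  set ε : Fin n → Bool := fun i =>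
    decide (0 ≤ fourierOne (fun x => ∑ c ∈ cubes, w c * ind c x) i) with hε
  have habs : ∀ i, |fourierOne (fun x => ∑ c ∈ cubes, w c * ind c x) i|
      = sgn (ε i) * fourierOne (fun x => ∑ c ∈ cubes, w c * ind c x) i := by
    intro i
    by_cases h : 0 ≤ fourierOne (fun x => ∑ c ∈ cubes, w c * ind c x) i
    · have : ε i = true := by simp [hε, h]
      rw [this, abs_of_nonneg h]
      simp [sgn]
    · have : ε i = false := by simp [hε, h]
      rw [this, abs_of_neg (not_le.mp h)]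
      simp [sgn]
  have hW : ∑ i, |fourierOne (fun x => ∑ c ∈ cubes, w c * ind c x) i|
      = ∑ c ∈ cubes, w c * (1 / 2 : ℝ) ^ codim c * sgnSum c ε := by
    rw [Finset.sum_congr rfl (fun i _ => habs i)]
    simp only [fourierOne_conical, sgnSum, Finset.mul_sum]
    rw [Finset.sum_comm]
    apply Finset.sum_congr rfl
    intro c _
    apply Finset.sum_congr rfl
    intro i _
    ring
  rw [hW]
  set Wg := ∑ c ∈ cubes, w c * (1 / 2 : ℝ) ^ codim c * sgnSum c ε with hWg
  rcases hμ0.lt_or_eq with hpos | hzero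
  · apply quad_lemma Wg Δ _ hΔ0
    intro τ
    have hcore := conical_core cubes w hw h1 ε τ (-Real.log μ)
    rw [Real.exp_neg, Real.exp_log hpos] at hcore
    have hsum : ∑ c ∈ cubes, w c * ((1 / 2 : ℝ) ^ codim c *
        (1 + τ * sgnSum c ε - codim c * (τ ^ 2 / 2) - -Real.log μ))
        = μ * (1 + Real.log μ) + τ * Wg - τ ^ 2 / 2 * Δ := by
      rw [hμ, hWg, hΔ, Finset.sum_mul, Finset.mul_sum, Finset.mul_sum, ← Finset.sum_add_distrib,
        ← Finset.sum_sub_distrib]
      apply Finset.sum_congr rfl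
      intro c _
      ring
    rw [hsum, inv_mul_le_iff₀ hpos] at hcore
    have hlog : Real.log (1 / μ) = -Real.log μ := by
      rw [one_div, Real.log_inv]
    rw [hlog]
    linarith
  · -- μ = 0 : all weights vanish
    have hvz : ∀ c ∈ cubes, w c * (1 / 2 : ℝ) ^ codim c = 0 := by
      intro c hc
      exact (Finset.sum_eq_zero_iff_of_nonneg hv).mp hzero.symm c hc
    have : Wg = 0 := by
      rw [hWg]
      apply Finset.sum_eq_zero
      intro c hc
      rw [hvz c hc, zero_mul]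
    rw [this, ← hzero]
    simp

end Vale.Agent.Lib.P047.H2
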