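import Vale.Agent.Lib.P047.H2.OneSided

namespace Vale.Agent.Lib.P047.H2

open Finset

theorem ind_eq_ite {n : ℕ} (c : Fin n → Option Bool) (x : Fin n → Bool)
    [Decidable (InCube c x)] : ind c x = if InCube c x then 1 else 0 := by
  by_cases h : InCube c x
  · rw [ind_of_mem c x h, if_pos h]
  · rw [ind_of_not_mem c x h, if_neg h]

theorem sum_sgn_coord {n : ℕ} (i : Fin n) : ∑ x : Fin n → Bool, sgn (x i) = 0 := by
  have h := sum_ind_sgn (fun _ : Fin n => (none : Option Bool)) i
  have h1 : ∀ x : Fin n → Bool, ind (fun _ : Fin n => (none : Option Bool)) x = 1 := by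
    intro x
    apply ind_of_mem
    intro i b hb
    simp at hb
  rw [Finset.sum_congr rfl (fun x _ => by rw [h1 x, one_mul])] at h
  rw [h]
  simp [sig]

theorem fourierOne_bool {n : ℕ} (f : (Fin n → Bool) → Bool) (i : Fin n) :
    fourierOne (fun x => sgn (f x)) i
      = 2 * fourierOne (fun x => if f x = true then (1 : ℝ) else 0) i := by
  unfold fourierOne
  have e : ∀ x : Fin n → Bool, sgn (f x) * sgn (x i)
      = 2 * ((if f x = true then (1 : ℝ) else 0) * sgn (x i)) - sgn (x i) := by
    intro x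
    cases f x <;> cases x i <;> simp [sgn] <;> norm_num
  rw [Finset.sum_congr rfl (fun x _ => e x), Finset.sum_sub_distrib, sum_sgn_coord,
    ← Finset.mul_sum]
  ring

theorem mu_log_bound (μ : ℝ) (hμ : 0 ≤ μ) :
    μ ^ 2 * Real.log (1 / μ) ≤ 1 / (2 * Real.exp 1) := by
  rcases hμ.lt_or_eq with hpos | hzero
  · have he : 0 < Real.exp 1 := Real.exp_pos 1
    have hu : 0 < Real.exp 1 * μ ^ 2 := by positivity
    have h1 := Real.log_le_sub_one_of_pos (inv_pos.mpr hu)
    rw [Real.log_inv, Real.log_mul he.ne' (by positivity), Real.log_exp, Real.log_pow] at h1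
    have hlog : Real.log (1 / μ) = -Real.log μ := by
      rw [one_div, Real.log_inv]
    rw [hlog]
    -- h1 : -(1 + 2 log μ) ≤ (e μ²)⁻¹ - 1
    have h2 : -(2 * Real.log μ) ≤ (Real.exp 1 * μ ^ 2)⁻¹ := by
      push_cast at h1
      linarith
    have h3 : μ ^ 2 * (-(2 * Real.log μ)) ≤ μ ^ 2 * (Real.exp 1 * μ ^ 2)⁻¹ :=
      mul_le_mul_of_nonneg_left h2 (by positivity)
    have h4 : μ ^ 2 * (Real.exp 1 * μ ^ 2)⁻¹ = 1 / Real.exp 1 := by
      field_simp
    rw [h4] at h3
    have h5 : 1 / (2 * Real.exp 1) = (1 / Real.exp 1) / 2 := by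
      field_simp
    rw [h5]
    linarith
  · rw [← hzero]
    simp
    positivity

open Classical in
/-- One-sided level-one bounds for a Boolean function whose set of ones is a nonnegative
combination of subcubes. -/
theorem onesided_conical {n : ℕ} (f : (Fin n → Bool) → Bool)
    (cubes : Finset (Fin n → Option Bool)) (w : (Fin n → Option Bool) → ℝ)
    (hw : ∀ c ∈ cubes, 0 ≤ w c)
    (hrep : ∀ x : Fin n → Bool,
      (∑ c ∈ cubes, if InCube c x then w c else 0) = if f x = true then 1 else 0)
    (μ : ℝ) (hμ : μ = ((Finset.univ.filter fun x : Fin n → Bool => f x = true).card : ℝ) / 2 ^ n) :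
    (∑ i, |fourierOne (fun x => sgn (f x)) i|
      ≤ 2 * Real.sqrt (2 * μ * Real.log (1 / μ) *
          ∑ c ∈ cubes, w c * codim c / 2 ^ codim c)) ∧
    ∀ d : ℕ, (∀ c ∈ cubes, codim c ≤ d) →
      (∑ i, |fourierOne (fun x => sgn (f x)) i|
        ≤ 2 * μ * Real.sqrt (2 * d * Real.log (1 / μ))) ∧
      (∑ i, |fourierOne (fun x => sgn (f x)) i|
        ≤ 2 / Real.sqrt (Real.exp 1) * Real.sqrt d) := by
  have hrep' : ∀ x : Fin n → Bool,
      (∑ c ∈ cubes, w c * ind c x) = if f x = true then 1 else 0 := by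
    intro x
    rw [← hrep x]
    apply Finset.sum_congr rfl
    intro c _
    rw [ind_eq_ite]
    split_ifs <;> simp
  have h1 : ∀ x : Fin n → Bool, ∑ c ∈ cubes, w c * ind c x ≤ 1 := by
    intro x
    rw [hrep' x]
    split_ifs <;> norm_num
  have hg : (fun x : Fin n → Bool => if f x = true then (1 : ℝ) else 0)
      = fun x => ∑ c ∈ cubes, w c * ind c x := by
    funext x
    rw [hrep' x]
  have hμ' : μ = ∑ c ∈ cubes, w c * (1 / 2 : ℝ) ^ codim c := by
    rw [← mean_conical, hμ]
    congr 1
    rw [Finset.sum_congr rfl (fun x _ => hrep' x), Finset.sum_boole]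
  have hv : ∀ c ∈ cubes, 0 ≤ w c * (1 / 2 : ℝ) ^ codim c := by
    intro c hc
    have := hw c hc
    positivity
  have hμ0 : 0 ≤ μ := by
    rw [hμ']
    exact Finset.sum_nonneg hv
  have hmain := conical_bound cubes w hw h1
  rw [← hg, ← hμ'] at hmain
  have hsum : ∑ i, |fourierOne (fun x => sgn (f x)) i|
      = 2 * ∑ i, |fourierOne (fun x => if f x = true then (1 : ℝ) else 0) i| := by
    rw [Finset.mul_sum]
    apply Finset.sum_congr rfl
    intro i _
    rw [fourierOne_bool, abs_mul]
    norm_num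
  set T := ∑ i, |fourierOne (fun x => if f x = true then (1 : ℝ) else 0) i| with hT
  have hT0 : 0 ≤ T := Finset.sum_nonneg (fun i _ => abs_nonneg _)
  have hΔeq : ∑ c ∈ cubes, w c * (1 / 2 : ℝ) ^ codim c * codim c
      = ∑ c ∈ cubes, w c * codim c / 2 ^ codim c := by
    apply Finset.sum_congr rfl
    intro c _
    rw [one_div, inv_pow]
    field_simp
  rw [hΔeq] at hmain
  refine ⟨?_, ?_⟩
  · rw [hsum]
    have : T ≤ Real.sqrt (2 * μ * Real.log (1 / μ) *
          ∑ c ∈ cubes, w c * codim c / 2 ^ codim c) := by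
      refine le_trans (le_abs_self T) (Real.abs_le_sqrt ?_)
      calc T ^ 2 ≤ 2 * (μ * Real.log (1 / μ)) * ∑ c ∈ cubes, w c * codim c / 2 ^ codim c := hmain
        _ = 2 * μ * Real.log (1 / μ) * ∑ c ∈ cubes, w c * codim c / 2 ^ codim c := by ring
    linarith
  · intro d hd
    have hΔ : ∑ c ∈ cubes, w c * codim c / 2 ^ codim c ≤ d * μ := by
      rw [← hΔeq, hμ', Finset.mul_sum]
      apply Finset.sum_le_sum
      intro c hc
      have h2 : (codim c : ℝ) ≤ d := by exact_mod_cast hd c hc
      have := hv c hc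
      nlinarith
    have hlogcases : 0 ≤ μ * Real.log (1 / μ) := by
      rcases hμ0.lt_or_eq with hpos | hzero
      · have hle : μ ≤ 1 := by
          rw [hμ]
          rw [div_le_one (by positivity)]
          have hc : (Finset.univ.filter fun x : Fin n → Bool => f x = true).card
              ≤ Fintype.card (Fin n → Bool) := Finset.card_le_univ _
          have hc2 : Fintype.card (Fin n → Bool) = 2 ^ n := by simp
          rw [hc2] at hc
          exact_mod_cast hc
        have : 0 ≤ Real.log (1 / μ) := by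
          apply Real.log_nonneg
          rw [le_div_iff₀ hpos]
          linarith
        positivity
      · rw [← hzero]; simp
    have hT2 : T ^ 2 ≤ μ ^ 2 * (2 * d * Real.log (1 / μ)) := by
      calc T ^ 2 ≤ 2 * (μ * Real.log (1 / μ)) * ∑ c ∈ cubes, w c * codim c / 2 ^ codim c := hmain
        _ ≤ 2 * (μ * Real.log (1 / μ)) * (d * μ) :=
          mul_le_mul_of_nonneg_left hΔ (by positivity)
        _ = μ ^ 2 * (2 * d * Real.log (1 / μ)) := by ring
    refine ⟨?_, ?_⟩
    · rw [hsum]
      have : T ≤ μ * Real.sqrt (2 * d * Real.log (1 / μ)) := by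
        have h3 : T ≤ Real.sqrt (μ ^ 2 * (2 * d * Real.log (1 / μ))) :=
          le_trans (le_abs_self T) (Real.abs_le_sqrt hT2)
        rw [Real.sqrt_mul (sq_nonneg μ), Real.sqrt_sq hμ0] at h3
        exact h3
      linarith
    · rw [hsum]
      have hT3 : T ^ 2 ≤ d / Real.exp 1 := by
        have hb := mu_log_bound μ hμ0
        have hd0 : (0 : ℝ) ≤ d := Nat.cast_nonneg d
        calc T ^ 2 ≤ μ ^ 2 * (2 * d * Real.log (1 / μ)) := hT2
          _ = 2 * d * (μ ^ 2 * Real.log (1 / μ)) := by ring
          _ ≤ 2 * d * (1 / (2 * Real.exp 1)) := mul_le_mul_of_nonneg_left hb (by positivity)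
          _ = d / Real.exp 1 := by
            have he : Real.exp 1 ≠ 0 := (Real.exp_pos 1).ne'
            field_simp
      have h3 : T ≤ Real.sqrt (d / Real.exp 1) :=
        le_trans (le_abs_self T) (Real.abs_le_sqrt hT3)
      rw [Real.sqrt_div (Nat.cast_nonneg d)] at h3
      have : 2 / Real.sqrt (Real.exp 1) * Real.sqrt d
          = 2 * (Real.sqrt d / Real.sqrt (Real.exp 1)) := by ring
      rw [this]
      linarith

open Classical in
/-- The same for a disjoint union of subcubes. -/
theorem onesided_disjoint {n : ℕ} (f : (Fin n → Bool) → Bool)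
    (cubes : Finset (Fin n → Option Bool))
    (hcover : ∀ x : Fin n → Bool, f x = true ↔ ∃ c ∈ cubes, InCube c x)
    (hdisj : ∀ c ∈ cubes, ∀ c' ∈ cubes, ∀ x : Fin n → Bool, InCube c x → InCube c' x → c = c')
    (μ : ℝ) (hμ : μ = ((Finset.univ.filter fun x : Fin n → Bool => f x = true).card : ℝ) / 2 ^ n) :
    (∑ i, |fourierOne (fun x => sgn (f x)) i|
      ≤ 2 * Real.sqrt (2 * μ * Real.log (1 / μ) *
          ∑ c ∈ cubes, (codim c : ℝ) / 2 ^ codim c)) ∧
    ∀ d : ℕ, (∀ c ∈ cubes, codim c ≤ d) →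
      (∑ i, |fourierOne (fun x => sgn (f x)) i|
        ≤ 2 * μ * Real.sqrt (2 * d * Real.log (1 / μ))) ∧
      (∑ i, |fourierOne (fun x => sgn (f x)) i|
        ≤ 2 / Real.sqrt (Real.exp 1) * Real.sqrt d) := by
  have hrep : ∀ x : Fin n → Bool,
      (∑ c ∈ cubes, if InCube c x then (fun _ : Fin n → Option Bool => (1 : ℝ)) c else 0)
        = if f x = true then 1 else 0 := by
    intro x
    by_cases hf : f x = true
    · obtain ⟨c0, hc0, hx0⟩ := (hcover x).mp hf
      rw [if_pos hf, Finset.sum_eq_single c0]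
      · rw [if_pos hx0]
      · intro c hc hne
        rw [if_neg]
        intro hx
        exact hne (hdisj c hc c0 hc0 x hx hx0)
      · intro h
        exact absurd hc0 h
    · rw [if_neg hf]
      apply Finset.sum_eq_zero
      intro c hc
      rw [if_neg]
      intro hx
      exact hf ((hcover x).mpr ⟨c, hc, hx⟩)
  have h := onesided_conical f cubes (fun _ => (1 : ℝ)) (fun _ _ => zero_le_one) hrep μ hμ
  simp only [one_mul] at h
  exact h

end Vale.Agent.Lib.P047.H2

namespace Vale.Agent.Lib.P047.H2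

open Finset

open Classical in
/-- Version for an arbitrary level set `{f = v}`. -/
theorem onesided_disjoint_level {n : ℕ} (f : (Fin n → Bool) → Bool) (v : Bool)
    (cubes : Finset (Fin n → Option Bool))
    (hcover : ∀ x : Fin n → Bool, f x = v ↔ ∃ c ∈ cubes, InCube c x)
    (hdisj : ∀ c ∈ cubes, ∀ c' ∈ cubes, ∀ x : Fin n → Bool, InCube c x → InCube c' x → c = c')
    (μ : ℝ) (hμ : μ = ((Finset.univ.filter fun x : Fin n → Bool => f x = v).card : ℝ) / 2 ^ n) :
    (∑ i, |fourierOne (fun x => sgn (f x)) i|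
      ≤ 2 * Real.sqrt (2 * μ * Real.log (1 / μ) *
          ∑ c ∈ cubes, (codim c : ℝ) / 2 ^ codim c)) ∧
    ∀ d : ℕ, (∀ c ∈ cubes, codim c ≤ d) →
      (∑ i, |fourierOne (fun x => sgn (f x)) i|
        ≤ 2 * μ * Real.sqrt (2 * d * Real.log (1 / μ))) ∧
      (∑ i, |fourierOne (fun x => sgn (f x)) i|
        ≤ 2 / Real.sqrt (Real.exp 1) * Real.sqrt d) := by
  have hcover' : ∀ x : Fin n → Bool, (fun x => decide (f x = v)) x = true
      ↔ ∃ c ∈ cubes, InCube c x := by
    intro x
    rw [← hcover x]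
    simp
  have hμ' : μ = ((Finset.univ.filter fun x : Fin n → Bool =>
      (fun x => decide (f x = v)) x = true).card : ℝ) / 2 ^ n := by
    rw [hμ]
    congr 2
    apply congrArg
    apply Finset.filter_congr
    intro x _
    simp
  have h := onesided_disjoint (fun x => decide (f x = v)) cubes hcover' hdisj μ hμ'
  have hs : ∀ i : Fin n, |fourierOne (fun x => sgn ((fun x => decide (f x = v)) x)) i|
      = |fourierOne (fun x => sgn (f x)) i| := by
    intro i
    have e : fourierOne (fun x => sgn ((fun x => decide (f x = v)) x)) i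
        = sgn v * fourierOne (fun x => sgn (f x)) i := by
      unfold fourierOne
      rw [← mul_div_assoc, Finset.mul_sum]
      congr 1
      apply Finset.sum_congr rfl
      intro x _
      have hp : ∀ a b : Bool, sgn (decide (a = b)) = sgn b * sgn a := by
        intro a b
        cases a <;> cases b <;> simp [sgn]
      show sgn (decide (f x = v)) * sgn (x i) = sgn v * (sgn (f x) * sgn (x i))
      rw [hp (f x) v]
      ring
    rw [e, abs_mul]
    cases v <;> simp [sgn]
  rw [Finset.sum_congr rfl (fun i _ => hs i)] at h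
  exact h

end Vale.Agent.Lib.P047.H2
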