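import Vale.Agent.Lib.P047.H2.TwoSidedBool

namespace Vale.Agent.Lib.P047.H2

open Finset Polynomial

/-- number of fixed coordinates of a cube that agree with the sign pattern `ε` -/
def posCount {n : ℕ} (c : Fin n → Option Bool) (ε : Fin n → Bool) : ℕ :=
  (Finset.univ.filter fun i => c i = some (ε i)).card

theorem prod_pow_codim {n : ℕ} (c : Fin n → Option Bool) (t : ℝ) :
    ∏ i : Fin n, (if (c i).isSome then t else 1) = t ^ codim c := by
  unfold codim
  rw [Finset.prod_ite, Finset.prod_const, Finset.prod_const_one, mul_one]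

theorem prod_pow_posCount {n : ℕ} (c : Fin n → Option Bool) (ε : Fin n → Bool) (t : ℝ) :
    ∏ i : Fin n, (if c i = some (ε i) then t else 1) = t ^ posCount c ε := by
  unfold posCount
  rw [Finset.prod_ite, Finset.prod_const, Finset.prod_const_one, mul_one]

theorem sgnSum_eq {n : ℕ} (c : Fin n → Option Bool) (ε : Fin n → Bool) :
    sgnSum c ε = 2 * (posCount c ε : ℝ) - codim c := by
  unfold sgnSum posCount
  rw [codim_eq_sum, Finset.card_filter]
  push_cast
  rw [Finset.mul_sum, ← Finset.sum_sub_distrib]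
  apply Finset.sum_congr rfl
  intro i _
  unfold sig
  cases hc : c i with
  | none => simp
  | some b =>
    cases hb : b <;> cases he : ε i <;> simp [sgn] <;> norm_num

/-- weighted count of a cube, weight `r` for each coordinate agreeing with `ε` -/
theorem sum_ind_rweight {n : ℕ} (c : Fin n → Option Bool) (ε : Fin n → Bool) (r : ℝ) :
    (1 + r) ^ codim c * ∑ x : Fin n → Bool, ind c x * ∏ i, (if x i = ε i then r else 1)
      = (1 + r) ^ n * r ^ posCount c ε := by
  rw [sum_ind_prod c (fun i b => if b = ε i then r else 1), ← prod_pow_codim, ← prod_pow_posCount]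
  have h2 : (1 + r) ^ n = ∏ _i : Fin n, (1 + r) := by simp
  rw [h2, ← Finset.prod_mul_distrib, ← Finset.prod_mul_distrib]
  apply Finset.prod_congr rfl
  intro i _
  unfold fac
  cases hc : c i with
  | none =>
    cases he : ε i
    · simp
    · simp
      ring
  | some b => cases hb : b <;> cases he : ε i <;> simp

theorem sum_rweight {n : ℕ} (ε : Fin n → Bool) (r : ℝ) :
    ∑ x : Fin n → Bool, ∏ i, (if x i = ε i then r else 1) = (1 + r) ^ n := by
  have h := sum_ind_rweight (fun _ : Fin n => (none : Option Bool)) ε r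
  have h1 : ∀ x : Fin n → Bool, ind (fun _ : Fin n => (none : Option Bool)) x = 1 := by
    intro x
    apply ind_of_mem
    intro i b hb
    simp at hb
  rw [Finset.sum_congr rfl (fun x _ => by rw [h1 x, one_mul])] at h
  have hc : codim (fun _ : Fin n => (none : Option Bool)) = 0 := by simp [codim]
  have hp : posCount (fun _ : Fin n => (none : Option Bool)) ε = 0 := by simp [posCount]
  rw [hc, hp] at h
  simpa using h

/-- the generating function identity of an exact fractional partition into subcubes of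
codimension at most `d` -/
theorem genfun_identity {n : ℕ} (cubes : Finset (Fin n → Option Bool))
    (w : (Fin n → Option Bool) → ℝ)
    (h1 : ∀ x : Fin n → Bool, ∑ c ∈ cubes, w c * ind c x = 1) (ε : Fin n → Bool)
    (d : ℕ) (hd : ∀ c ∈ cubes, codim c ≤ d) (r : ℝ) (hr : 0 < r) :
    ∑ c ∈ cubes, w c * (r ^ posCount c ε * (1 + r) ^ (d - codim c)) = (1 + r) ^ d := by
  have hr1 : (1 + r) ≠ 0 := by positivity
  have hA : ∑ c ∈ cubes, w c * ∑ x : Fin n → Bool, ind c x * ∏ i, (if x i = ε i then r else 1)
      = (1 + r) ^ n := by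
    rw [← sum_rweight ε r]
    simp only [Finset.mul_sum]
    rw [Finset.sum_comm]
    apply Finset.sum_congr rfl
    intro x _
    have : ∑ c ∈ cubes, w c * (ind c x * ∏ i, (if x i = ε i then r else 1))
        = (∑ c ∈ cubes, w c * ind c x) * ∏ i, (if x i = ε i then r else 1) := by
      rw [Finset.sum_mul]
      apply Finset.sum_congr rfl
      intro c _
      ring
    rw [this, h1 x, one_mul]
  have hB : ∀ c ∈ cubes, w c * (r ^ posCount c ε * (1 + r) ^ (d - codim c)) * (1 + r) ^ n
      = (1 + r) ^ d * (w c * ∑ x : Fin n → Bool, ind c x * ∏ i, (if x i = ε i then r else 1)) := by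
    intro c hc
    have h2 := sum_ind_rweight c ε r
    have h3 : (1 + r) ^ d = (1 + r) ^ (d - codim c) * (1 + r) ^ codim c := by
      rw [← pow_add, Nat.sub_add_cancel (hd c hc)]
    calc w c * (r ^ posCount c ε * (1 + r) ^ (d - codim c)) * (1 + r) ^ n
        = w c * (1 + r) ^ (d - codim c) * ((1 + r) ^ n * r ^ posCount c ε) := by ring
      _ = w c * (1 + r) ^ (d - codim c) * ((1 + r) ^ codim c *
            ∑ x : Fin n → Bool, ind c x * ∏ i, (if x i = ε i then r else 1)) := by rw [h2]
      _ = (1 + r) ^ d * (w c * ∑ x : Fin n → Bool, ind c x *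
            ∏ i, (if x i = ε i then r else 1)) := by rw [h3]; ring
  have hC : (∑ c ∈ cubes, w c * (r ^ posCount c ε * (1 + r) ^ (d - codim c))) * (1 + r) ^ n
      = (1 + r) ^ d * (1 + r) ^ n := by
    rw [Finset.sum_mul, Finset.sum_congr rfl hB, ← Finset.mul_sum, hA]
  exact mul_right_cancel₀ (pow_ne_zero n hr1) hC

/-- the same identity in the polynomial ring -/
theorem genfun_poly {n : ℕ} (cubes : Finset (Fin n → Option Bool))
    (w : (Fin n → Option Bool) → ℝ)
    (h1 : ∀ x : Fin n → Bool, ∑ c ∈ cubes, w c * ind c x = 1) (ε : Fin n → Bool)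
    (d : ℕ) (hd : ∀ c ∈ cubes, codim c ≤ d) :
    ∑ c ∈ cubes, C (w c) * (X ^ posCount c ε * (1 + X) ^ (d - codim c)) = ((1 + X) ^ d : ℝ[X]) := by
  apply Polynomial.eq_of_infinite_eval_eq
  apply Set.Infinite.mono _ (Set.Ioi_infinite (0 : ℝ))
  intro r hr
  have hr0 : 0 < r := hr
  have := genfun_identity cubes w h1 ε d hd r hr0
  simp only [Set.mem_ofPred_eq, Polynomial.eval_finsetSum, Polynomial.eval_mul, Polynomial.eval_C,
    Polynomial.eval_pow, Polynomial.eval_X, Polynomial.eval_add, Polynomial.eval_one]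
  exact this

/-- a linear functional on polynomials of degree at most `d` -/
theorem lin_functional (p : ℝ[X]) (d : ℕ) (hp : p.natDegree ≤ d) :
    ∑ k ∈ Finset.range (d + 1), p.coeff k * (2 * (k : ℝ) - d)
      = 2 * p.derivative.eval 1 - d * p.eval 1 := by
  have h1 : p.eval 1 = ∑ k ∈ Finset.range (d + 1), p.coeff k := by
    rw [Polynomial.eval_eq_sum_range' (Nat.lt_succ_of_le hp)]
    simp
  have hd' : p.derivative.natDegree < d + 1 :=
    lt_of_le_of_lt (le_trans (Polynomial.natDegree_derivative_le p) (Nat.sub_le _ _))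
      (Nat.lt_succ_of_le hp)
  have h2 : p.derivative.eval 1 = ∑ k ∈ Finset.range (d + 1), p.coeff k * k := by
    rw [Polynomial.eval_eq_sum_range' hd']
    simp only [one_pow, mul_one, Polynomial.coeff_derivative]
    have h3 : ∑ k ∈ Finset.range (d + 1 + 1), p.coeff k * (k : ℝ)
        = ∑ k ∈ Finset.range (d + 1), p.coeff (k + 1) * ((k : ℝ) + 1) + p.coeff 0 * ((0 : ℕ) : ℝ) := by
      rw [Finset.sum_range_succ']
      push_cast
      rfl
    have h4 : ∑ k ∈ Finset.range (d + 1 + 1), p.coeff k * (k : ℝ)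
        = ∑ k ∈ Finset.range (d + 1), p.coeff k * (k : ℝ) := by
      rw [Finset.sum_range_succ]
      have : p.coeff (d + 1) = 0 :=
        Polynomial.coeff_eq_zero_of_natDegree_lt (Nat.lt_succ_of_le hp)
      rw [this]
      simp
    rw [← h4, h3]
    simp
  rw [h1, h2, Finset.mul_sum, Finset.mul_sum, ← Finset.sum_sub_distrib]
  apply Finset.sum_congr rfl
  intro k _
  ring

end Vale.Agent.Lib.P047.H2
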