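import Vale.Agent.Lib.P047.H2.Sharp

namespace Vale.Agent.Lib.P047.H2

open Finset Polynomial

theorem coeff_cubePoly_nonneg (a m k : ℕ) :
    0 ≤ ((X ^ a * (1 + X) ^ m : ℝ[X])).coeff k := by
  rw [Polynomial.coeff_X_pow_mul', Polynomial.coeff_one_add_X_pow]
  split_ifs
  · positivity
  · exact le_refl _

theorem natDegree_cubePoly (a m : ℕ) :
    ((X ^ a * (1 + X) ^ m : ℝ[X])).natDegree ≤ a + m := by
  apply Polynomial.natDegree_mul_le_of_le
  · exact Polynomial.natDegree_X_pow_le a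
  · have h1 : ((1 + X : ℝ[X])).natDegree ≤ 1 :=
      Polynomial.natDegree_add_le_of_degree_le (by simp) Polynomial.natDegree_X_le
    calc ((1 + X : ℝ[X]) ^ m).natDegree ≤ m * ((1 + X : ℝ[X])).natDegree :=
          Polynomial.natDegree_pow_le
      _ ≤ m * 1 := Nat.mul_le_mul_left m h1
      _ = m := Nat.mul_one m

theorem eval_cubePoly (a m : ℕ) :
    ((X ^ a * (1 + X) ^ m : ℝ[X])).eval 1 = 2 ^ m := by
  simp
  norm_num

theorem deriv_cubePoly (a m : ℕ) :
    2 * ((X ^ a * (1 + X) ^ m : ℝ[X])).derivative.eval 1 = 2 ^ m * (2 * (a : ℝ) + m) := by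
  rw [Polynomial.derivative_mul, Polynomial.derivative_X_pow, Polynomial.derivative_pow]
  simp only [Polynomial.eval_add, Polynomial.eval_mul, Polynomial.eval_pow, Polynomial.eval_C,
    Polynomial.eval_X, Polynomial.eval_one, one_pow, mul_one, one_mul,
    Polynomial.derivative_add, Polynomial.derivative_one, Polynomial.derivative_X, zero_add]
  cases m with
  | zero => simp
  | succ m =>
    simp only [Nat.add_sub_cancel]
    push_cast
    norm_num
    ring

/-- key lower bound for the functional on a cube polynomial -/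
theorem functional_cube (a m d : ℕ) (h : a + m ≤ d) :
    2 ^ m * |2 * (a : ℝ) + m - d|
      ≤ ∑ k ∈ Finset.range (d + 1), ((X ^ a * (1 + X) ^ m : ℝ[X])).coeff k * |2 * (k : ℝ) - d| := by
  have hlin := lin_functional (X ^ a * (1 + X) ^ m : ℝ[X]) d
    (le_trans (natDegree_cubePoly a m) h)
  rw [deriv_cubePoly, eval_cubePoly] at hlin
  have h1 : (2 : ℝ) ^ m * |2 * (a : ℝ) + m - d| = |2 ^ m * (2 * (a : ℝ) + m) - d * 2 ^ m| := by
    rw [show (2 : ℝ) ^ m * (2 * (a : ℝ) + m) - d * 2 ^ m = 2 ^ m * (2 * (a : ℝ) + m - d) by ring,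
      abs_mul, abs_of_pos (by positivity : (0 : ℝ) < 2 ^ m)]
  rw [h1, ← hlin]
  refine le_trans (Finset.abs_sum_le_sum_abs _ _) ?_
  apply Finset.sum_le_sum
  intro k _
  rw [abs_mul, abs_of_nonneg (coeff_cubePoly_nonneg a m k)]

theorem posCount_le_codim {n : ℕ} (c : Fin n → Option Bool) (ε : Fin n → Bool) :
    posCount c ε ≤ codim c := by
  unfold posCount codim
  apply Finset.card_le_card
  intro i hi
  simp only [Finset.mem_filter, Finset.mem_univ, true_and] at hi ⊢
  rw [hi]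
  rfl

/-- Sharp first absolute moment bound for an exact fractional partition into subcubes of
codimension at most `d`. -/
theorem sharp_abs_bound {n : ℕ} (cubes : Finset (Fin n → Option Bool))
    (w : (Fin n → Option Bool) → ℝ) (hw : ∀ c ∈ cubes, 0 ≤ w c)
    (h1 : ∀ x : Fin n → Bool, ∑ c ∈ cubes, w c * ind c x = 1) (ε : Fin n → Bool)
    (d : ℕ) (hd : ∀ c ∈ cubes, codim c ≤ d) :
    ∑ c ∈ cubes, w c * (1 / 2 : ℝ) ^ codim c * |sgnSum c ε|
      ≤ (∑ k ∈ Finset.range (d + 1), (d.choose k : ℝ) * |2 * (k : ℝ) - d|) / 2 ^ d := by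
  have hpoly := genfun_poly cubes w h1 ε d hd
  have hcoeff : ∀ k : ℕ, ∑ c ∈ cubes, w c *
      ((X ^ posCount c ε * (1 + X) ^ (d - codim c) : ℝ[X])).coeff k = (d.choose k : ℝ) := by
    intro k
    have := congrArg (fun p : ℝ[X] => p.coeff k) hpoly
    simp only [Polynomial.finsetSum_coeff, Polynomial.coeff_C_mul,
      Polynomial.coeff_one_add_X_pow] at this
    exact this
  have hterm : ∀ c ∈ cubes, w c * ((2 : ℝ) ^ d * ((1 / 2 : ℝ) ^ codim c * |sgnSum c ε|))
      ≤ w c * ∑ k ∈ Finset.range (d + 1),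
        ((X ^ posCount c ε * (1 + X) ^ (d - codim c) : ℝ[X])).coeff k * |2 * (k : ℝ) - d| := by
    intro c hc
    apply mul_le_mul_of_nonneg_left _ (hw c hc)
    have hle : posCount c ε + (d - codim c) ≤ d := by
      have := posCount_le_codim c ε
      have := hd c hc
      omega
    have hf := functional_cube (posCount c ε) (d - codim c) d hle
    refine le_trans (le_of_eq ?_) hf
    have e1 : (2 : ℝ) ^ d * (1 / 2 : ℝ) ^ codim c = 2 ^ (d - codim c) := by
      rw [one_div, inv_pow, pow_sub₀ (2 : ℝ) (by norm_num) (hd c hc)]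
    have e2 : 2 * (posCount c ε : ℝ) + ((d - codim c : ℕ) : ℝ) - d = sgnSum c ε := by
      rw [sgnSum_eq, Nat.cast_sub (hd c hc)]
      ring
    rw [e2, ← e1]
    ring
  have hsum := Finset.sum_le_sum hterm
  have hR : ∑ c ∈ cubes, w c * ∑ k ∈ Finset.range (d + 1),
        ((X ^ posCount c ε * (1 + X) ^ (d - codim c) : ℝ[X])).coeff k * |2 * (k : ℝ) - d|
      = ∑ k ∈ Finset.range (d + 1), (d.choose k : ℝ) * |2 * (k : ℝ) - d| := by
    simp only [Finset.mul_sum]
    rw [Finset.sum_comm]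
    apply Finset.sum_congr rfl
    intro k _
    rw [← hcoeff k, Finset.sum_mul]
    apply Finset.sum_congr rfl
    intro c _
    ring
  rw [hR] at hsum
  rw [le_div_iff₀ (by positivity : (0 : ℝ) < 2 ^ d)]
  refine le_trans (le_of_eq ?_) hsum
  rw [Finset.sum_mul]
  apply Finset.sum_congr rfl
  intro c _
  ring

/-- Sharp two-sided level-one inequality. -/
theorem twosided_conical_sharp {n : ℕ} (cubes : Finset (Fin n → Option Bool))
    (w φ : (Fin n → Option Bool) → ℝ) (hw : ∀ c ∈ cubes, 0 ≤ w c)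
    (hφ : ∀ c ∈ cubes, |φ c| ≤ 1)
    (h1 : ∀ x : Fin n → Bool, ∑ c ∈ cubes, w c * ind c x = 1)
    (d : ℕ) (hd : ∀ c ∈ cubes, codim c ≤ d) :
    ∑ i, |fourierOne (fun x => ∑ c ∈ cubes, (w c * φ c) * ind c x) i|
      ≤ (∑ k ∈ Finset.range (d + 1), (d.choose k : ℝ) * |2 * (k : ℝ) - d|) / 2 ^ d := by
  obtain ⟨ε, hε⟩ := exists_signs cubes (fun c => w c * φ c)
  rw [hε]
  have hv : ∀ c ∈ cubes, 0 ≤ w c * (1 / 2 : ℝ) ^ codim c := by
    intro c hc
    have := hw c hc
    positivity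
  refine le_trans ?_ (sharp_abs_bound cubes w hw h1 ε d hd)
  apply Finset.sum_le_sum
  intro c hc
  have h2 : φ c * sgnSum c ε ≤ |sgnSum c ε| := by
    calc φ c * sgnSum c ε ≤ |φ c * sgnSum c ε| := le_abs_self _
      _ = |φ c| * |sgnSum c ε| := abs_mul _ _
      _ ≤ 1 * |sgnSum c ε| := mul_le_mul_of_nonneg_right (hφ c hc) (abs_nonneg _)
      _ = |sgnSum c ε| := one_mul _
  have := mul_le_mul_of_nonneg_left h2 (hv c hc)
  calc w c * φ c * (1 / 2 : ℝ) ^ codim c * sgnSum c ε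
      = w c * (1 / 2 : ℝ) ^ codim c * (φ c * sgnSum c ε) := by ring
    _ ≤ w c * (1 / 2 : ℝ) ^ codim c * |sgnSum c ε| := this

end Vale.Agent.Lib.P047.H2
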