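import Vale.Agent.Lib.P047.H2.Oddize

namespace Vale.Agent.Lib.P047.H2

open Finset

section

variable {ι : Type} [Fintype ι] [DecidableEq ι]

theorem oddize_mean (s : Bool) (f : (ι → Bool) → Bool) :
    fourier (fun x => sgn (oddize s f x)) ∅ = 0 := by
  have h := fourier_oddize_some s f (∅ : Finset ι)
  rw [Finset.map_empty] at h
  rw [h]
  simp

theorem oddize_levelOne (s : Bool) (f : (ι → Bool) → Bool) :
    ∑ o : Option ι, fourier (fun x => sgn (oddize s f x)) {o}
      = ∑ i, fourier (fun y => sgn (f y)) {i} + sgn s * fourier (fun y => sgn (f y)) ∅ := by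
  rw [Fintype.sum_option]
  have h0 : ({none} : Finset (Option ι)) = Finset.insertNone (∅ : Finset ι) := by
    ext o
    cases o <;> simp
  have h1 : ∀ i : ι, ({some i} : Finset (Option ι)) = ({i} : Finset ι).map Function.Embedding.some := by
    intro i
    rw [Finset.map_singleton]
    rfl
  rw [h0, fourier_oddize_none, Finset.sum_congr rfl (fun i _ => by rw [h1 i, fourier_oddize_some])]
  simp
  ring

theorem oddize_degree (s : Bool) (f : (ι → Bool) → Bool) :
    degree (fun x => sgn (oddize s f x)) ≤ 2 * (degree (fun y => sgn (f y)) / 2) + 1 := by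
  rw [degree_le_iff]
  intro T hT
  by_cases hn : none ∈ T
  · have hT' : T = Finset.insertNone (Finset.eraseNone T) := by
      rw [Finset.insertNone_eraseNone, Finset.insert_eq_of_mem hn]
    rw [hT', fourier_oddize_none] at hT
    by_cases he : Even (Finset.eraseNone T).card
    · rw [if_pos he] at hT
      have hf : fourier (fun y => sgn (f y)) (Finset.eraseNone T) ≠ 0 := right_ne_zero_of_mul hT
      have hle := card_le_degree _ _ hf
      rw [hT', Finset.card_insertNone]
      obtain ⟨r, hr⟩ := he
      omega
    · rw [if_neg he] at hT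
      exact absurd rfl hT
  · have hT' : T = (Finset.eraseNone T).map Function.Embedding.some := by
      rw [Finset.map_some_eraseNone, Finset.erase_eq_of_notMem hn]
    rw [hT', fourier_oddize_some] at hT
    by_cases ho : Odd (Finset.eraseNone T).card
    · rw [if_pos ho] at hT
      have hle := card_le_degree _ _ hT
      rw [hT', Finset.card_map]
      omega
    · rw [if_neg ho] at hT
      exact absurd rfl hT

end

/-- iterated composition: existence of amplified functions -/
theorem iterate_comp {κ : Type} [Fintype κ] [DecidableEq κ] (g : (κ → Bool) → Bool)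
    (hg : fourier (fun y => sgn (g y)) ∅ = 0) (k : ℕ) :
    ∃ (τ : Type) (_ : Fintype τ) (_ : DecidableEq τ) (h : (τ → Bool) → Bool),
      fourier (fun y => sgn (h y)) ∅ = 0 ∧
      ∑ t, fourier (fun y => sgn (h y)) {t} = (∑ j, fourier (fun y => sgn (g y)) {j}) ^ (k + 1) ∧
      degree (fun y => sgn (h y)) ≤ degree (fun y => sgn (g y)) ^ (k + 1) := by
  induction k with
  | zero =>
    refine ⟨κ, inferInstance, inferInstance, g, hg, ?_, ?_⟩
    · simp
    · simp
  | succ k ih =>
    obtain ⟨τ, i1, i2, h, hmean, hW, hdeg⟩ := ih
    refine ⟨κ × τ, inferInstance, inferInstance, comp g h, ?_, ?_, ?_⟩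
    · rw [fourier_comp_empty g h hmean]
      exact hg
    · rw [levelOne_comp g h hmean, hW]
      ring
    · refine le_trans (degree_comp_le g h) ?_
      calc degree (fun y => sgn (g y)) * degree (fun y => sgn (h y))
          ≤ degree (fun y => sgn (g y)) * degree (fun y => sgn (g y)) ^ (k + 1) :=
            Nat.mul_le_mul_left _ hdeg
        _ = degree (fun y => sgn (g y)) ^ (k + 1 + 1) := by ring

section transfer

variable {τ σ : Type} [Fintype τ] [DecidableEq τ] [Fintype σ] [DecidableEq σ]

/-- Fourier coefficients under a renaming of the variables -/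
theorem fourier_rename (e : τ ≃ σ) (h : (τ → Bool) → Bool) (S : Finset τ) :
    fourier (fun y : σ → Bool => sgn (h (fun t => y (e t)))) (S.map e.toEmbedding)
      = fourier (fun x => sgn (h x)) S := by
  unfold fourier
  rw [Fintype.card_congr e]
  congr 1
  rw [← Equiv.sum_comp (Equiv.arrowCongr e (Equiv.refl Bool))
    (fun y : σ → Bool => sgn (h (fun t => y (e t))) * ∏ i ∈ S.map e.toEmbedding, sgn (y i))]
  apply Finset.sum_congr rfl
  intro x _
  rw [Finset.prod_map]
  simp [Equiv.arrowCongr]

theorem rename_props (e : τ ≃ σ) (h : (τ → Bool) → Bool) :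
    fourier (fun y : σ → Bool => sgn (h (fun t => y (e t)))) ∅ = fourier (fun x => sgn (h x)) ∅ ∧
    ∑ i, fourier (fun y : σ → Bool => sgn (h (fun t => y (e t)))) {i}
      = ∑ t, fourier (fun x => sgn (h x)) {t} ∧
    degree (fun y : σ → Bool => sgn (h (fun t => y (e t)))) ≤ degree (fun x => sgn (h x)) := by
  refine ⟨?_, ?_, ?_⟩
  · have := fourier_rename e h ∅
    rw [Finset.map_empty] at this
    exact this
  · rw [← Equiv.sum_comp e]
    apply Finset.sum_congr rfl
    intro t _
    have := fourier_rename e h {t}
    rw [Finset.map_singleton] at this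
    exact this
  · rw [degree_le_iff]
    intro T hT
    have hT' : T = (T.map e.symm.toEmbedding).map e.toEmbedding := by
      rw [Finset.map_map]
      ext i
      simp
    rw [hT', fourier_rename] at hT
    have := card_le_degree _ _ hT
    rw [Finset.card_map] at this
    exact this

end transfer

end Vale.Agent.Lib.P047.H2
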