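import Vale.Agent.Lib.P047.H2.Tensor

namespace Vale.Agent.Lib.P047.H2

open Finset

/-- Amplification: from one Boolean function to balanced functions with the `(k+1)`-st power
of `sum_i f^({i}) + |f^(∅)|` as level-one sum. -/
theorem amplify (n : ℕ) (f : (Fin n → Bool) → Bool) (k : ℕ) :
    ∃ (N : ℕ) (F : (Fin N → Bool) → Bool),
      fourier (fun x => sgn (F x)) ∅ = 0 ∧
      degree (fun x => sgn (F x)) ≤ (2 * (degree (fun x => sgn (f x)) / 2) + 1) ^ (k + 1) ∧
      ∑ i, fourier (fun x => sgn (F x)) {i}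
        = (∑ i, fourier (fun x => sgn (f x)) {i} + |fourier (fun x => sgn (f x)) ∅|) ^ (k + 1) := by
  -- oddization with the sign of the mean
  obtain ⟨s, hs⟩ : ∃ s : Bool, sgn s * fourier (fun x => sgn (f x)) ∅
      = |fourier (fun x => sgn (f x)) ∅| := by
    by_cases h : 0 ≤ fourier (fun x => sgn (f x)) ∅
    · exact ⟨true, by rw [abs_of_nonneg h]; simp [sgn]⟩
    · exact ⟨false, by rw [abs_of_neg (not_le.mp h)]; simp [sgn]⟩
  have hmean := oddize_mean s f
  have hW := oddize_levelOne s f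
  have hdeg := oddize_degree s f
  rw [hs] at hW
  obtain ⟨τ, i1, i2, h, hhmean, hhW, hhdeg⟩ := iterate_comp (oddize s f) hmean k
  obtain ⟨r1, r2, r3⟩ := rename_props (Fintype.equivFin τ) h
  refine ⟨Fintype.card τ, fun y => h (fun t => y (Fintype.equivFin τ t)), ?_, ?_, ?_⟩
  · rw [r1, hhmean]
  · refine le_trans r3 (le_trans hhdeg ?_)
    exact Nat.pow_le_pow_left hdeg (k + 1)
  · rw [r2, hhW, hW]

/-- The weak form of the conjecture implies an almost sharp form. -/
theorem weak_to_strong (C : ℝ)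
    (hC : ∀ (n : ℕ) (f : (Fin n → Bool) → Bool),
      ∑ i, fourier (fun x => sgn (f x)) {i} ≤ C * Real.sqrt (degree (fun x => sgn (f x))))
    (n : ℕ) (f : (Fin n → Bool) → Bool) :
    ∑ i, fourier (fun x => sgn (f x)) {i} + |fourier (fun x => sgn (f x)) ∅|
      ≤ Real.sqrt ((2 * (degree (fun x => sgn (f x)) / 2) + 1 : ℕ)) := by
  set w := ∑ i, fourier (fun x => sgn (f x)) {i} + |fourier (fun x => sgn (f x)) ∅| with hw
  set D : ℕ := 2 * (degree (fun x => sgn (f x)) / 2) + 1 with hD
  have hD1 : (1 : ℝ) ≤ (D : ℝ) := by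
    have : 1 ≤ D := by omega
    exact_mod_cast this
  have hsD : 1 ≤ Real.sqrt D := by
    have h1 : Real.sqrt 1 ≤ Real.sqrt D := Real.sqrt_le_sqrt hD1
    rw [Real.sqrt_one] at h1
    exact h1
  have hsD0 : 0 < Real.sqrt D := by linarith
  by_contra hcon
  push Not at hcon
  have hq : 1 < w / Real.sqrt D := by
    rw [lt_div_iff₀ hsD0]
    linarith
  -- all powers are bounded by |C|
  have hbound : ∀ k : ℕ, (w / Real.sqrt D) ^ (k + 1) ≤ |C| := by
    intro k
    obtain ⟨N, F, _, hFdeg, hFW⟩ := amplify n f k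
    have h1 := hC N F
    rw [hFW] at h1
    have h2 : Real.sqrt (degree (fun x => sgn (F x))) ≤ Real.sqrt D ^ (k + 1) := by
      have h3 : ((degree (fun x => sgn (F x)) : ℕ) : ℝ) ≤ ((D ^ (k + 1) : ℕ) : ℝ) := by
        exact_mod_cast hFdeg
      have h4 : Real.sqrt ((D ^ (k + 1) : ℕ) : ℝ) = Real.sqrt D ^ (k + 1) := by
        push_cast
        rw [Real.sqrt_eq_iff_mul_self_eq (by positivity) (by positivity), ← mul_pow,
          Real.mul_self_sqrt (by positivity)]
      rw [← h4]
      exact Real.sqrt_le_sqrt h3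
    have h5 : w ^ (k + 1) ≤ |C| * Real.sqrt D ^ (k + 1) := by
      calc w ^ (k + 1) ≤ C * Real.sqrt (degree (fun x => sgn (F x))) := h1
        _ ≤ |C| * Real.sqrt (degree (fun x => sgn (F x))) :=
            mul_le_mul_of_nonneg_right (le_abs_self C) (Real.sqrt_nonneg _)
        _ ≤ |C| * Real.sqrt D ^ (k + 1) := mul_le_mul_of_nonneg_left h2 (abs_nonneg C)
    rw [div_pow, div_le_iff₀ (by positivity)]
    exact h5
  obtain ⟨m, hm⟩ := pow_unbounded_of_one_lt |C| hq
  have h6 := hbound m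
  have h7 : (w / Real.sqrt D) ^ m ≤ (w / Real.sqrt D) ^ (m + 1) :=
    pow_le_pow_right₀ hq.le (Nat.le_succ m)
  linarith

/-- conversely, the almost sharp form is a weak form -/
theorem strong_to_weak
    (h : ∀ (n : ℕ) (f : (Fin n → Bool) → Bool),
      ∑ i, fourier (fun x => sgn (f x)) {i} + |fourier (fun x => sgn (f x)) ∅|
        ≤ Real.sqrt ((2 * (degree (fun x => sgn (f x)) / 2) + 1 : ℕ)))
    (n : ℕ) (f : (Fin n → Bool) → Bool) :
    ∑ i, fourier (fun x => sgn (f x)) {i}
      ≤ Real.sqrt 2 * Real.sqrt (degree (fun x => sgn (f x))) := by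
  rcases Nat.eq_zero_or_pos (degree (fun x => sgn (f x))) with h0 | hpos
  · rw [h0]
    simp only [Nat.cast_zero, Real.sqrt_zero, mul_zero]
    apply le_of_eq
    apply Finset.sum_eq_zero
    intro i _
    by_contra hne
    have := card_le_degree _ _ hne
    rw [h0] at this
    simp at this
  · have h1 := h n f
    have h2 : ∑ i, fourier (fun x => sgn (f x)) {i}
        ≤ ∑ i, fourier (fun x => sgn (f x)) {i} + |fourier (fun x => sgn (f x)) ∅| := by
      have := abs_nonneg (fourier (fun x => sgn (f x)) ∅)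
      linarith
    refine le_trans h2 (le_trans h1 ?_)
    rw [← Real.sqrt_mul (by norm_num)]
    apply Real.sqrt_le_sqrt
    have : 2 * (degree (fun x => sgn (f x)) / 2) + 1 ≤ 2 * degree (fun x => sgn (f x)) := by omega
    exact_mod_cast this

end Vale.Agent.Lib.P047.H2
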