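import Vale.Agent.Lib.P047.H2.Cubes

namespace Vale.Agent.Lib.P047.H2

open Finset

/-- signed value of a fixed coordinate, zero for a free one -/
def sig (o : Option Bool) : ℝ :=
  match o with | none => 0 | some b => sgn b

/-- signed sum of the fixed coordinates of a cube, relative to signs `ε` -/
noncomputable def sgnSum {n : ℕ} (c : Fin n → Option Bool) (ε : Fin n → Bool) : ℝ :=
  ∑ i, sgn (ε i) * sig (c i)

theorem sgn_sq (b : Bool) : sgn b * sgn b = 1 := by
  cases b <;> simp [sgn]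

theorem sgn_true_add_false : sgn true + sgn false = 0 := by
  simp [sgn]

theorem codim_eq_sum {n : ℕ} (c : Fin n → Option Bool) :
    (codim c : ℝ) = ∑ i, (if (c i).isSome then (1 : ℝ) else 0) := by
  unfold codim
  rw [Finset.sum_boole]

theorem prod_half_pow {n : ℕ} (c : Fin n → Option Bool) :
    ∏ i : Fin n, (if (c i).isSome then (1 / 2 : ℝ) else 1) = (1 / 2 : ℝ) ^ codim c := by
  unfold codim
  rw [Finset.prod_ite, Finset.prod_const, Finset.prod_const_one, mul_one]

/-- number of points of a cube -/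
theorem sum_ind {n : ℕ} (c : Fin n → Option Bool) :
    ∑ x : Fin n → Bool, ind c x = 2 ^ n * (1 / 2 : ℝ) ^ codim c := by
  have h := sum_ind_prod c (fun _ _ => (1 : ℝ))
  simp only [Finset.prod_const_one, mul_one] at h
  rw [h, ← prod_half_pow]
  have h2 : (2 : ℝ) ^ n = ∏ _i : Fin n, (2 : ℝ) := by simp
  rw [h2, ← Finset.prod_mul_distrib]
  apply Finset.prod_congr rfl
  intro i _
  unfold fac
  cases hc : c i with
  | none => simp; norm_num
  | some b => simp

/-- signed count of a cube in direction `i` -/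
theorem sum_ind_sgn {n : ℕ} (c : Fin n → Option Bool) (i : Fin n) :
    ∑ x : Fin n → Bool, ind c x * sgn (x i) = 2 ^ n * (1 / 2 : ℝ) ^ codim c * sig (c i) := by
  have h := sum_ind_prod c (fun j b => if j = i then sgn b else (1 : ℝ))
  have h1 : ∀ x : Fin n → Bool, ∏ j, (if j = i then sgn (x j) else (1 : ℝ)) = sgn (x i) := by
    intro x
    rw [Finset.prod_ite_eq' Finset.univ i (fun j => sgn (x j))]
    simp
  rw [Finset.sum_congr rfl (fun x _ => by rw [h1 x])] at h
  rw [h, ← prod_half_pow]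
  have h2 : (2 : ℝ) ^ n = ∏ _i : Fin n, (2 : ℝ) := by simp
  have h3 : sig (c i) = ∏ j, (if j = i then sig (c j) else (1 : ℝ)) := by
    rw [Finset.prod_ite_eq' Finset.univ i (fun j => sig (c j))]
    simp
  rw [h2, h3, ← Finset.prod_mul_distrib, ← Finset.prod_mul_distrib]
  apply Finset.prod_congr rfl
  intro j _
  unfold fac sig
  by_cases hj : j = i
  · subst hj
    cases hc : c j with
    | none => simp [sgn]
    | some b => simp
  · cases hc : c j with
    | none => simp [hj]; norm_num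
    | some b => simp [hj]

/-- total mass of the tilted weight -/
theorem sum_tilt {n : ℕ} (ε : Fin n → Bool) (τ : ℝ) :
    ∑ x : Fin n → Bool, ∏ i, Real.exp (τ * sgn (ε i) * sgn (x i)) = (2 * Real.cosh τ) ^ n := by
  have h := sum_ind_prod (fun _ : Fin n => (none : Option Bool))
    (fun i b => Real.exp (τ * sgn (ε i) * sgn b))
  have h1 : ∀ x : Fin n → Bool, ind (fun _ : Fin n => (none : Option Bool)) x = 1 := by
    intro x
    apply ind_of_mem
    intro i b hb
    simp at hb
  rw [Finset.sum_congr rfl (fun x _ => by rw [h1 x, one_mul])] at h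
  rw [h]
  have h2 : (2 * Real.cosh τ) ^ n = ∏ _i : Fin n, (2 * Real.cosh τ) := by simp
  rw [h2]
  apply Finset.prod_congr rfl
  intro i _
  unfold fac
  simp only
  rw [Real.cosh_eq]
  cases ε i <;> simp [sgn] <;> ring

/-- lower bound for the tilted mass of a cube, exponential form -/
theorem tilt_cube_lower_exp {n : ℕ} (c : Fin n → Option Bool) (ε : Fin n → Bool) (τ : ℝ) :
    (2 * Real.cosh τ) ^ n * ((1 / 2 : ℝ) ^ codim c *
        Real.exp (τ * sgnSum c ε - codim c * (τ ^ 2 / 2)))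
      ≤ ∑ x : Fin n → Bool, ind c x * ∏ i, Real.exp (τ * sgn (ε i) * sgn (x i)) := by
  rw [sum_ind_prod c (fun i b => Real.exp (τ * sgn (ε i) * sgn b))]
  have hcosh : 0 < Real.cosh τ := Real.cosh_pos τ
  have hcosh2 : Real.cosh τ ≤ Real.exp (τ ^ 2 / 2) := Real.cosh_le_exp_half_sq τ
  -- product of lower bounds
  have hfac : ∀ i : Fin n, (2 * Real.cosh τ) * ((if (c i).isSome then (1 / 2 : ℝ) else 1) *
      Real.exp (τ * (sgn (ε i) * sig (c i)) - (if (c i).isSome then (1 : ℝ) else 0) * (τ ^ 2 / 2)))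
      ≤ fac (c i) (fun b => Real.exp (τ * sgn (ε i) * sgn b)) := by
    intro i
    unfold fac sig
    cases hc : c i with
    | none =>
      simp only [Option.isSome_none, Bool.false_eq_true, if_false, mul_zero, zero_mul, sub_zero,
        Real.exp_zero, mul_one]
      rw [Real.cosh_eq]
      cases ε i <;> simp [sgn] <;> ring_nf <;> rfl
    | some b =>
      simp only [Option.isSome_some, if_true, one_mul]
      have e1 : Real.exp (τ * (sgn (ε i) * sgn b) - τ ^ 2 / 2)
          = Real.exp (τ * sgn (ε i) * sgn b) * Real.exp (-(τ ^ 2 / 2)) := by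
        rw [← Real.exp_add]; congr 1; ring
      rw [e1]
      have e2 : Real.exp (τ ^ 2 / 2) * Real.exp (-(τ ^ 2 / 2)) = 1 := by
        rw [← Real.exp_add]; simp
      have hpos : 0 < Real.exp (τ * sgn (ε i) * sgn b) := Real.exp_pos _
      have hpos2 : 0 < Real.exp (-(τ ^ 2 / 2)) := Real.exp_pos _
      have : Real.cosh τ * Real.exp (-(τ ^ 2 / 2)) ≤ 1 := by
        calc Real.cosh τ * Real.exp (-(τ ^ 2 / 2))
            ≤ Real.exp (τ ^ 2 / 2) * Real.exp (-(τ ^ 2 / 2)) :=
              mul_le_mul_of_nonneg_right hcosh2 hpos2.le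
          _ = 1 := e2
      calc 2 * Real.cosh τ * (1 / 2 * (Real.exp (τ * sgn (ε i) * sgn b) * Real.exp (-(τ ^ 2 / 2))))
          = Real.exp (τ * sgn (ε i) * sgn b) * (Real.cosh τ * Real.exp (-(τ ^ 2 / 2))) := by ring
        _ ≤ Real.exp (τ * sgn (ε i) * sgn b) * 1 := mul_le_mul_of_nonneg_left this hpos.le
        _ = Real.exp (τ * sgn (ε i) * sgn b) := mul_one _
  have hprod : ∏ i : Fin n, ((2 * Real.cosh τ) * ((if (c i).isSome then (1 / 2 : ℝ) else 1) *
      Real.exp (τ * (sgn (ε i) * sig (c i)) - (if (c i).isSome then (1 : ℝ) else 0) * (τ ^ 2 / 2))))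
      ≤ ∏ i : Fin n, fac (c i) (fun b => Real.exp (τ * sgn (ε i) * sgn b)) := by
    apply Finset.prod_le_prod
    · intro i _
      have : 0 < Real.exp (τ * (sgn (ε i) * sig (c i)) -
          (if (c i).isSome then (1 : ℝ) else 0) * (τ ^ 2 / 2)) := Real.exp_pos _
      have h2 : (0 : ℝ) < (if (c i).isSome then (1 / 2 : ℝ) else 1) := by
        split_ifs <;> norm_num
      positivity
    · intro i _
      exact hfac i
  refine le_trans ?_ hprod
  have hprodeq : ∏ i : Fin n, ((2 * Real.cosh τ) * ((if (c i).isSome then (1 / 2 : ℝ) else 1) *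
      Real.exp (τ * (sgn (ε i) * sig (c i)) - (if (c i).isSome then (1 : ℝ) else 0) * (τ ^ 2 / 2))))
      = (2 * Real.cosh τ) ^ n * ((1 / 2 : ℝ) ^ codim c *
        Real.exp (τ * ∑ i, sgn (ε i) * sig (c i) - codim c * (τ ^ 2 / 2))) := by
    have e1 : ∏ i : Fin n, ((2 * Real.cosh τ) * ((if (c i).isSome then (1 / 2 : ℝ) else 1) *
        Real.exp (τ * (sgn (ε i) * sig (c i)) -
          (if (c i).isSome then (1 : ℝ) else 0) * (τ ^ 2 / 2))))
        = (∏ _i : Fin n, (2 * Real.cosh τ)) * ((∏ i : Fin n, (if (c i).isSome then (1 / 2 : ℝ) else 1)) *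
          ∏ i : Fin n, Real.exp (τ * (sgn (ε i) * sig (c i)) -
            (if (c i).isSome then (1 : ℝ) else 0) * (τ ^ 2 / 2))) := by
      rw [← Finset.prod_mul_distrib, ← Finset.prod_mul_distrib]
    rw [e1, Finset.prod_const, prod_half_pow, ← Real.exp_sum, Finset.sum_sub_distrib,
      ← Finset.mul_sum, ← Finset.sum_mul, ← codim_eq_sum]
    simp only [Finset.card_univ, Fintype.card_fin]
  rw [hprodeq]
  unfold sgnSum
  exact le_refl _

/-- lower bound for the tilted mass of a cube -/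
theorem tilt_cube_lower {n : ℕ} (c : Fin n → Option Bool) (ε : Fin n → Bool) (τ L : ℝ) :
    (2 * Real.cosh τ) ^ n * ((1 / 2 : ℝ) ^ codim c *
        (Real.exp L * (1 + τ * sgnSum c ε - codim c * (τ ^ 2 / 2) - L)))
      ≤ ∑ x : Fin n → Bool, ind c x * ∏ i, Real.exp (τ * sgn (ε i) * sgn (x i)) := by
  refine le_trans ?_ (tilt_cube_lower_exp c ε τ)
  have hY : Real.exp L * (1 + τ * sgnSum c ε - codim c * (τ ^ 2 / 2) - L)
      ≤ Real.exp (τ * sgnSum c ε - codim c * (τ ^ 2 / 2)) := by
    have h1 := Real.add_one_le_exp (τ * sgnSum c ε - codim c * (τ ^ 2 / 2) - L)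
    have h2 : Real.exp (τ * sgnSum c ε - codim c * (τ ^ 2 / 2))
        = Real.exp L * Real.exp (τ * sgnSum c ε - codim c * (τ ^ 2 / 2) - L) := by
      rw [← Real.exp_add]; congr 1; ring
    rw [h2]
    apply mul_le_mul_of_nonneg_left _ (Real.exp_pos L).le
    linarith
  have hcosh : 0 < Real.cosh τ := Real.cosh_pos τ
  have hpow : (0 : ℝ) ≤ (2 * Real.cosh τ) ^ n := by positivity
  have hhalf : (0 : ℝ) ≤ (1 / 2 : ℝ) ^ codim c := by positivity
  exact mul_le_mul_of_nonneg_left (mul_le_mul_of_nonneg_left hY hhalf) hpow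

end Vale.Agent.Lib.P047.H2
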