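import Vale.Agent.Lib.P047.H2.OneSidedBool

namespace Vale.Agent.Lib.P047.H2

open Finset

theorem two_add_sq_le (y : ℝ) : 2 + y ^ 2 ≤ Real.exp y + Real.exp (-y) := by
  have h1 : Real.exp y + Real.exp (-y) = 2 * Real.cosh y := by rw [Real.cosh_eq]; ring
  have h2 : Real.cosh y = 1 + 2 * Real.sinh (y / 2) ^ 2 := by
    have h5 := Real.cosh_two_mul (y / 2)
    have h3 := Real.cosh_sq (y / 2)
    rw [show 2 * (y / 2) = y by ring] at h5
    rw [h5, h3]; ring
  have h4 : (y / 2) ^ 2 ≤ Real.sinh (y / 2) ^ 2 := by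
    rw [← sq_abs (y / 2), ← sq_abs (Real.sinh (y / 2)), Real.abs_sinh]
    have h6 : |y / 2| ≤ Real.sinh |y / 2| := Real.self_le_sinh_iff.mpr (abs_nonneg _)
    exact pow_le_pow_left₀ (abs_nonneg _) h6 2
  rw [h1, h2]; nlinarith

/-- exponential form of the core inequality -/
theorem conical_core_exp {n : ℕ} (cubes : Finset (Fin n → Option Bool))
    (w : (Fin n → Option Bool) → ℝ) (hw : ∀ c ∈ cubes, 0 ≤ w c)
    (h1 : ∀ x : Fin n → Bool, ∑ c ∈ cubes, w c * ind c x ≤ 1)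
    (ε : Fin n → Bool) (τ : ℝ) :
    ∑ c ∈ cubes, w c * ((1 / 2 : ℝ) ^ codim c *
      Real.exp (τ * sgnSum c ε - codim c * (τ ^ 2 / 2))) ≤ 1 := by
  have hρ : ∀ x : Fin n → Bool, 0 ≤ ∏ i, Real.exp (τ * sgn (ε i) * sgn (x i)) := by
    intro x
    apply Finset.prod_nonneg
    intro i _
    exact (Real.exp_pos _).le
  have hA : ∑ x : Fin n → Bool, (∑ c ∈ cubes, w c * ind c x) *
      ∏ i, Real.exp (τ * sgn (ε i) * sgn (x i)) ≤ (2 * Real.cosh τ) ^ n := by
    rw [← sum_tilt ε τ]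
    apply Finset.sum_le_sum
    intro x _
    calc (∑ c ∈ cubes, w c * ind c x) * ∏ i, Real.exp (τ * sgn (ε i) * sgn (x i))
        ≤ 1 * ∏ i, Real.exp (τ * sgn (ε i) * sgn (x i)) :=
          mul_le_mul_of_nonneg_right (h1 x) (hρ x)
      _ = ∏ i, Real.exp (τ * sgn (ε i) * sgn (x i)) := one_mul _
  have hB : ∑ x : Fin n → Bool, (∑ c ∈ cubes, w c * ind c x) *
      ∏ i, Real.exp (τ * sgn (ε i) * sgn (x i))
      = ∑ c ∈ cubes, w c * ∑ x : Fin n → Bool, ind c x *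
        ∏ i, Real.exp (τ * sgn (ε i) * sgn (x i)) := by
    simp only [Finset.sum_mul, Finset.mul_sum]
    rw [Finset.sum_comm]
    apply Finset.sum_congr rfl
    intro c _
    apply Finset.sum_congr rfl
    intro x _
    ring
  have hC : ∑ c ∈ cubes, w c * ((2 * Real.cosh τ) ^ n * ((1 / 2 : ℝ) ^ codim c *
        Real.exp (τ * sgnSum c ε - codim c * (τ ^ 2 / 2))))
      ≤ ∑ c ∈ cubes, w c * ∑ x : Fin n → Bool, ind c x *
        ∏ i, Real.exp (τ * sgn (ε i) * sgn (x i)) := by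
    apply Finset.sum_le_sum
    intro c hc
    exact mul_le_mul_of_nonneg_left (tilt_cube_lower_exp c ε τ) (hw c hc)
  have hD : ∑ c ∈ cubes, w c * ((2 * Real.cosh τ) ^ n * ((1 / 2 : ℝ) ^ codim c *
        Real.exp (τ * sgnSum c ε - codim c * (τ ^ 2 / 2))))
      = (2 * Real.cosh τ) ^ n * ∑ c ∈ cubes, w c * ((1 / 2 : ℝ) ^ codim c *
      Real.exp (τ * sgnSum c ε - codim c * (τ ^ 2 / 2))) := by
    simp only [Finset.mul_sum]
    apply Finset.sum_congr rfl
    intro c _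
    ring
  have hpos : (0 : ℝ) < (2 * Real.cosh τ) ^ n := by
    have := Real.cosh_pos τ
    positivity
  have hE : (2 * Real.cosh τ) ^ n * ∑ c ∈ cubes, w c * ((1 / 2 : ℝ) ^ codim c *
      Real.exp (τ * sgnSum c ε - codim c * (τ ^ 2 / 2))) ≤ (2 * Real.cosh τ) ^ n * 1 := by
    rw [mul_one, ← hD]
    exact le_trans hC (hB ▸ hA)
  exact le_of_mul_le_mul_left hE hpos

/-- total weight of an exact fractional partition -/
theorem total_weight {n : ℕ} (cubes : Finset (Fin n → Option Bool))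
    (w : (Fin n → Option Bool) → ℝ)
    (h1 : ∀ x : Fin n → Bool, ∑ c ∈ cubes, w c * ind c x = 1) :
    ∑ c ∈ cubes, w c * (1 / 2 : ℝ) ^ codim c = 1 := by
  rw [← mean_conical, Finset.sum_congr rfl (fun x _ => h1 x)]
  simp

/-- Second moment inequality for an exact (fractional) partition into subcubes. -/
theorem second_moment {n : ℕ} (cubes : Finset (Fin n → Option Bool))
    (w : (Fin n → Option Bool) → ℝ) (hw : ∀ c ∈ cubes, 0 ≤ w c)
    (h1 : ∀ x : Fin n → Bool, ∑ c ∈ cubes, w c * ind c x = 1) (ε : Fin n → Bool) :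
    ∑ c ∈ cubes, w c * (1 / 2 : ℝ) ^ codim c * sgnSum c ε ^ 2
      ≤ ∑ c ∈ cubes, w c * (1 / 2 : ℝ) ^ codim c * codim c := by
  have hv : ∀ c ∈ cubes, 0 ≤ w c * (1 / 2 : ℝ) ^ codim c := by
    intro c hc
    have := hw c hc
    positivity
  have htot := total_weight cubes w h1
  have h1' : ∀ x : Fin n → Bool, ∑ c ∈ cubes, w c * ind c x ≤ 1 := fun x => (h1 x).le
  set Q := ∑ c ∈ cubes, w c * (1 / 2 : ℝ) ^ codim c * sgnSum c ε ^ 2 with hQ
  set Δ := ∑ c ∈ cubes, w c * (1 / 2 : ℝ) ^ codim c * codim c with hΔ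
  set K := ∑ c ∈ cubes, w c * (1 / 2 : ℝ) ^ codim c * (codim c * sgnSum c ε ^ 2) with hK
  have hK0 : 0 ≤ K := by
    apply Finset.sum_nonneg
    intro c hc
    have := hv c hc
    positivity
  have key : ∀ τ : ℝ, τ ^ 2 * (Q - Δ) ≤ τ ^ 4 / 2 * K := by
    intro τ
    have hp := conical_core_exp cubes w hw h1' ε τ
    have hm := conical_core_exp cubes w hw h1' ε (-τ)
    have hterm : ∀ c ∈ cubes, w c * (1 / 2 : ℝ) ^ codim c *
        ((1 - codim c * (τ ^ 2 / 2)) * (2 + τ ^ 2 * sgnSum c ε ^ 2))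
        ≤ w c * ((1 / 2 : ℝ) ^ codim c *
            Real.exp (τ * sgnSum c ε - codim c * (τ ^ 2 / 2)))
          + w c * ((1 / 2 : ℝ) ^ codim c *
            Real.exp (-τ * sgnSum c ε - codim c * ((-τ) ^ 2 / 2))) := by
      intro c hc
      have e1 : Real.exp (τ * sgnSum c ε - codim c * (τ ^ 2 / 2))
          = Real.exp (-(codim c * (τ ^ 2 / 2))) * Real.exp (τ * sgnSum c ε) := by
        rw [← Real.exp_add]; congr 1; ring
      have e2 : Real.exp (-τ * sgnSum c ε - codim c * ((-τ) ^ 2 / 2))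
          = Real.exp (-(codim c * (τ ^ 2 / 2))) * Real.exp (-(τ * sgnSum c ε)) := by
        rw [← Real.exp_add]; congr 1; ring
      rw [e1, e2]
      have hb := two_add_sq_le (τ * sgnSum c ε)
      have ha := Real.add_one_le_exp (-(codim c * (τ ^ 2 / 2)))
      have hapos : 0 < Real.exp (-(codim c * (τ ^ 2 / 2))) := Real.exp_pos _
      have hb0 : 0 ≤ 2 + τ ^ 2 * sgnSum c ε ^ 2 := by positivity
      have hprod : (1 - codim c * (τ ^ 2 / 2)) * (2 + τ ^ 2 * sgnSum c ε ^ 2)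
          ≤ Real.exp (-(codim c * (τ ^ 2 / 2))) *
            (Real.exp (τ * sgnSum c ε) + Real.exp (-(τ * sgnSum c ε))) := by
        have hb' : 2 + τ ^ 2 * sgnSum c ε ^ 2
            ≤ Real.exp (τ * sgnSum c ε) + Real.exp (-(τ * sgnSum c ε)) := by
          have : (τ * sgnSum c ε) ^ 2 = τ ^ 2 * sgnSum c ε ^ 2 := by ring
          linarith
        calc (1 - codim c * (τ ^ 2 / 2)) * (2 + τ ^ 2 * sgnSum c ε ^ 2)
            ≤ Real.exp (-(codim c * (τ ^ 2 / 2))) * (2 + τ ^ 2 * sgnSum c ε ^ 2) :=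
              mul_le_mul_of_nonneg_right (by linarith) hb0
          _ ≤ Real.exp (-(codim c * (τ ^ 2 / 2))) *
              (Real.exp (τ * sgnSum c ε) + Real.exp (-(τ * sgnSum c ε))) :=
              mul_le_mul_of_nonneg_left hb' hapos.le
      have := mul_le_mul_of_nonneg_left hprod (hv c hc)
      calc w c * (1 / 2 : ℝ) ^ codim c *
          ((1 - codim c * (τ ^ 2 / 2)) * (2 + τ ^ 2 * sgnSum c ε ^ 2))
          ≤ w c * (1 / 2 : ℝ) ^ codim c * (Real.exp (-(codim c * (τ ^ 2 / 2))) *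
            (Real.exp (τ * sgnSum c ε) + Real.exp (-(τ * sgnSum c ε)))) := this
        _ = _ := by ring
    have hsum := Finset.sum_le_sum hterm
    rw [Finset.sum_add_distrib] at hsum
    have hexpand : ∑ c ∈ cubes, w c * (1 / 2 : ℝ) ^ codim c *
        ((1 - codim c * (τ ^ 2 / 2)) * (2 + τ ^ 2 * sgnSum c ε ^ 2))
        = 2 * (∑ c ∈ cubes, w c * (1 / 2 : ℝ) ^ codim c) - τ ^ 2 * Δ + τ ^ 2 * Q
          - τ ^ 4 / 2 * K := by
      rw [hQ, hΔ, hK, Finset.mul_sum, Finset.mul_sum, Finset.mul_sum, Finset.mul_sum,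
        ← Finset.sum_sub_distrib, ← Finset.sum_add_distrib, ← Finset.sum_sub_distrib]
      apply Finset.sum_congr rfl
      intro c _
      ring
    rw [hexpand, htot] at hsum
    linarith
  by_contra hcon
  push Not at hcon
  have hδ : 0 < Q - Δ := by linarith
  have hK1 : 0 < K + 1 := by linarith
  have hτ := key (Real.sqrt ((Q - Δ) / (K + 1)))
  have hsq : Real.sqrt ((Q - Δ) / (K + 1)) ^ 2 = (Q - Δ) / (K + 1) :=
    Real.sq_sqrt (by positivity)
  have h4 : Real.sqrt ((Q - Δ) / (K + 1)) ^ 4 = ((Q - Δ) / (K + 1)) ^ 2 := by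
    rw [show (4 : ℕ) = 2 * 2 by norm_num, pow_mul, hsq]
  rw [hsq, h4] at hτ
  have h5 : (Q - Δ) / (K + 1) * (Q - Δ) - ((Q - Δ) / (K + 1)) ^ 2 / 2 * K
      = (Q - Δ) ^ 2 * (K + 2) / (2 * (K + 1) ^ 2) := by
    field_simp
    ring
  have h6 : 0 < (Q - Δ) ^ 2 * (K + 2) / (2 * (K + 1) ^ 2) := by positivity
  linarith

end Vale.Agent.Lib.P047.H2
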