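import Vale.Agent.Lib.P047.H2.TwoSided

namespace Vale.Agent.Lib.P047.H2

open Finset

/-- the level-one sum of absolute values as a signed sum over the cubes -/
theorem exists_signs {n : ℕ} (cubes : Finset (Fin n → Option Bool))
    (u : (Fin n → Option Bool) → ℝ) :
    ∃ ε : Fin n → Bool, ∑ i, |fourierOne (fun x => ∑ c ∈ cubes, u c * ind c x) i|
      = ∑ c ∈ cubes, u c * (1 / 2 : ℝ) ^ codim c * sgnSum c ε := by
  refine ⟨fun i => decide (0 ≤ fourierOne (fun x => ∑ c ∈ cubes, u c * ind c x) i), ?_⟩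
  have habs : ∀ i, |fourierOne (fun x => ∑ c ∈ cubes, u c * ind c x) i|
      = sgn (decide (0 ≤ fourierOne (fun x => ∑ c ∈ cubes, u c * ind c x) i)) *
        fourierOne (fun x => ∑ c ∈ cubes, u c * ind c x) i := by
    intro i
    by_cases h : 0 ≤ fourierOne (fun x => ∑ c ∈ cubes, u c * ind c x) i
    · rw [abs_of_nonneg h]
      simp [sgn, h]
    · rw [abs_of_neg (not_le.mp h)]
      simp [sgn, h]
  rw [Finset.sum_congr rfl (fun i _ => habs i)]
  simp only [fourierOne_conical, sgnSum, Finset.mul_sum]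
  rw [Finset.sum_comm]
  apply Finset.sum_congr rfl
  intro c _
  apply Finset.sum_congr rfl
  intro i _
  ring

/-- Two-sided level-one inequality: a function that is a combination, with coefficients in
`[-1,1]`, of the cells of an exact fractional partition into subcubes. -/
theorem twosided_conical {n : ℕ} (cubes : Finset (Fin n → Option Bool))
    (w φ : (Fin n → Option Bool) → ℝ) (hw : ∀ c ∈ cubes, 0 ≤ w c)
    (hφ : ∀ c ∈ cubes, |φ c| ≤ 1)
    (h1 : ∀ x : Fin n → Bool, ∑ c ∈ cubes, w c * ind c x = 1) :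
    ∑ i, |fourierOne (fun x => ∑ c ∈ cubes, (w c * φ c) * ind c x) i|
      ≤ Real.sqrt (∑ c ∈ cubes, w c * (1 / 2 : ℝ) ^ codim c * codim c) := by
  obtain ⟨ε, hε⟩ := exists_signs cubes (fun c => w c * φ c)
  rw [hε]
  have hv : ∀ c ∈ cubes, 0 ≤ w c * (1 / 2 : ℝ) ^ codim c := by
    intro c hc
    have := hw c hc
    positivity
  have htot := total_weight cubes w h1
  have hQ := second_moment cubes w hw h1 ε
  obtain ⟨U, hU⟩ : ∃ U : ℝ, U = ∑ c ∈ cubes, w c * (1 / 2 : ℝ) ^ codim c * |sgnSum c ε| :=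
    ⟨_, rfl⟩
  have hTU : ∑ c ∈ cubes, w c * φ c * (1 / 2 : ℝ) ^ codim c * sgnSum c ε ≤ U := by
    rw [hU]
    apply Finset.sum_le_sum
    intro c hc
    have h2 : φ c * sgnSum c ε ≤ |sgnSum c ε| := by
      calc φ c * sgnSum c ε ≤ |φ c * sgnSum c ε| := le_abs_self _
        _ = |φ c| * |sgnSum c ε| := abs_mul _ _
        _ ≤ 1 * |sgnSum c ε| := mul_le_mul_of_nonneg_right (hφ c hc) (abs_nonneg _)
        _ = |sgnSum c ε| := one_mul _
    have := mul_le_mul_of_nonneg_left h2 (hv c hc)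
    calc w c * φ c * (1 / 2 : ℝ) ^ codim c * sgnSum c ε
        = w c * (1 / 2 : ℝ) ^ codim c * (φ c * sgnSum c ε) := by ring
      _ ≤ w c * (1 / 2 : ℝ) ^ codim c * |sgnSum c ε| := this
  have hUQ : U ^ 2 ≤ ∑ c ∈ cubes, w c * (1 / 2 : ℝ) ^ codim c * sgnSum c ε ^ 2 := by
    have hnn : 0 ≤ ∑ c ∈ cubes, w c * (1 / 2 : ℝ) ^ codim c * (|sgnSum c ε| - U) ^ 2 := by
      apply Finset.sum_nonneg
      intro c hc
      have := hv c hc
      positivity
    have hexp : ∑ c ∈ cubes, w c * (1 / 2 : ℝ) ^ codim c * (|sgnSum c ε| - U) ^ 2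
        = ∑ c ∈ cubes, w c * (1 / 2 : ℝ) ^ codim c * sgnSum c ε ^ 2
          - 2 * U * (∑ c ∈ cubes, w c * (1 / 2 : ℝ) ^ codim c * |sgnSum c ε|)
          + U ^ 2 * ∑ c ∈ cubes, w c * (1 / 2 : ℝ) ^ codim c := by
      rw [Finset.mul_sum, Finset.mul_sum, ← Finset.sum_sub_distrib, ← Finset.sum_add_distrib]
      apply Finset.sum_congr rfl
      intro c _
      have : |sgnSum c ε| ^ 2 = sgnSum c ε ^ 2 := sq_abs _
      rw [← this]
      ring
    rw [← hU] at hexp
    rw [hexp, htot] at hnn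
    nlinarith
  have hU2 : U ^ 2 ≤ ∑ c ∈ cubes, w c * (1 / 2 : ℝ) ^ codim c * codim c := le_trans hUQ hQ
  exact le_trans hTU (le_trans (le_abs_self U) (Real.abs_le_sqrt hU2))

/-- a point of a cube -/
def cubePoint {n : ℕ} (c : Fin n → Option Bool) : Fin n → Bool := fun i => (c i).getD true

theorem cubePoint_mem {n : ℕ} (c : Fin n → Option Bool) : InCube c (cubePoint c) := by
  intro i b hb
  simp [cubePoint, hb]

open Classical in
/-- Boolean functions constant on the cells of a partition into subcubes. -/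
theorem twosided_partition {n : ℕ} (f : (Fin n → Bool) → Bool)
    (cubes : Finset (Fin n → Option Bool))
    (hcover : ∀ x : Fin n → Bool, ∃ c ∈ cubes, InCube c x)
    (hdisj : ∀ c ∈ cubes, ∀ c' ∈ cubes, ∀ x : Fin n → Bool, InCube c x → InCube c' x → c = c')
    (hconst : ∀ c ∈ cubes, ∀ x y : Fin n → Bool, InCube c x → InCube c y → f x = f y) :
    ∑ i, |fourierOne (fun x => sgn (f x)) i|
      ≤ Real.sqrt (∑ c ∈ cubes, (codim c : ℝ) / 2 ^ codim c) := by
  have hsingle : ∀ (φ : (Fin n → Option Bool) → ℝ) (x : Fin n → Bool) (c0 : Fin n → Option Bool),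
      c0 ∈ cubes → InCube c0 x → ∑ c ∈ cubes, φ c * ind c x = φ c0 := by
    intro φ x c0 hc0 hx0
    rw [Finset.sum_eq_single c0]
    · rw [ind_of_mem c0 x hx0, mul_one]
    · intro c hc hne
      rw [ind_of_not_mem, mul_zero]
      intro hx
      exact hne (hdisj c hc c0 hc0 x hx hx0)
    · intro h
      exact absurd hc0 h
  have h1 : ∀ x : Fin n → Bool, ∑ c ∈ cubes, (fun _ => (1 : ℝ)) c * ind c x = 1 := by
    intro x
    obtain ⟨c0, hc0, hx0⟩ := hcover x
    exact hsingle (fun _ => (1 : ℝ)) x c0 hc0 hx0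
  have hF : (fun x : Fin n → Bool => sgn (f x))
      = fun x => ∑ c ∈ cubes, ((fun _ => (1 : ℝ)) c * (fun c => sgn (f (cubePoint c))) c) *
          ind c x := by
    funext x
    obtain ⟨c0, hc0, hx0⟩ := hcover x
    rw [hsingle (fun c => (fun _ => (1 : ℝ)) c * (fun c => sgn (f (cubePoint c))) c) x c0 hc0 hx0]
    simp only [one_mul]
    rw [hconst c0 hc0 x (cubePoint c0) hx0 (cubePoint_mem c0)]
  have hφ : ∀ c ∈ cubes, |(fun c => sgn (f (cubePoint c))) c| ≤ 1 := by
    intro c _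
    simp only [sgn]
    split_ifs <;> simp
  have h := twosided_conical cubes (fun _ => (1 : ℝ)) (fun c => sgn (f (cubePoint c)))
    (fun _ _ => zero_le_one) hφ h1
  rw [← hF] at h
  refine le_trans h (le_of_eq ?_)
  congr 1
  apply Finset.sum_congr rfl
  intro c _
  rw [one_div, inv_pow]
  field_simp

end Vale.Agent.Lib.P047.H2
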