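import Vale.Agent.Lib.P047.H2.Sharp2

namespace Vale.Agent.Lib.P047.H2

open Finset

open Classical in
/-- Boolean functions constant on the cells of a partition into subcubes of codimension at
most `d`: the level-one sum is at most `E|X_1 + ... + X_d|`. -/
theorem twosided_partition_sharp {n : ℕ} (f : (Fin n → Bool) → Bool)
    (cubes : Finset (Fin n → Option Bool))
    (hcover : ∀ x : Fin n → Bool, ∃ c ∈ cubes, InCube c x)
    (hdisj : ∀ c ∈ cubes, ∀ c' ∈ cubes, ∀ x : Fin n → Bool, InCube c x → InCube c' x → c = c')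
    (hconst : ∀ c ∈ cubes, ∀ x y : Fin n → Bool, InCube c x → InCube c y → f x = f y)
    (d : ℕ) (hd : ∀ c ∈ cubes, codim c ≤ d) :
    ∑ i, |fourierOne (fun x => sgn (f x)) i|
      ≤ (∑ k ∈ Finset.range (d + 1), (d.choose k : ℝ) * |2 * (k : ℝ) - d|) / 2 ^ d := by
  have hsingle : ∀ (φ : (Fin n → Option Bool) → ℝ) (x : Fin n → Bool) (c0 : Fin n → Option Bool),
      c0 ∈ cubes → InCube c0 x → ∑ c ∈ cubes, φ c * ind c x = φ c0 := by
    intro φ x c0 hc0 hx0
    rw [Finset.sum_eq_single c0]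
    · rw [ind_of_mem c0 x hx0, mul_one]
    · intro c hc hne
      rw [ind_of_not_mem, mul_zero]
      intro hx
      exact hne (hdisj c hc c0 hc0 x hx hx0)
    · intro h
      exact absurd hc0 h
  have h1 : ∀ x : Fin n → Bool, ∑ c ∈ cubes, (fun _ => (1 : ℝ)) c * ind c x = 1 := by
    intro x
    obtain ⟨c0, hc0, hx0⟩ := hcover x
    exact hsingle (fun _ => (1 : ℝ)) x c0 hc0 hx0
  have hF : (fun x : Fin n → Bool => sgn (f x))
      = fun x => ∑ c ∈ cubes, ((fun _ => (1 : ℝ)) c * (fun c => sgn (f (cubePoint c))) c) *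
          ind c x := by
    funext x
    obtain ⟨c0, hc0, hx0⟩ := hcover x
    rw [hsingle (fun c => (fun _ => (1 : ℝ)) c * (fun c => sgn (f (cubePoint c))) c) x c0 hc0 hx0]
    simp only [one_mul]
    rw [hconst c0 hc0 x (cubePoint c0) hx0 (cubePoint_mem c0)]
  have hφ : ∀ c ∈ cubes, |(fun c => sgn (f (cubePoint c))) c| ≤ 1 := by
    intro c _
    simp only [sgn]
    split_ifs <;> simp
  have h := twosided_conical_sharp cubes (fun _ => (1 : ℝ)) (fun c => sgn (f (cubePoint c)))
    (fun _ _ => zero_le_one) hφ h1 d hd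
  rw [← hF] at h
  exact h

end Vale.Agent.Lib.P047.H2
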